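import Vale.Agent.P297Y.Alg.CsA

/-! P297, positive irregularity: the degree and the sections of the restriction of a divisor to the
normalisation of a curve. -/

set_option linter.all false

open IsLocalRing

namespace Vale.Agent.P297Z.Sf

open Vale.Agent.P019P (CFF Plk LL Mge gen dg dv prn)
open Vale.Agent.P297 (Place PlaceOver IsFF)

variable {K : Type} [Field K] [Algebra ℂ K]

namespace CsH

theorem dg_finsum {α : Type} (z : α →₀ ℤ) : dg z = ∑ᶠ a, z a := by
  rw [P019P.dg_apply, finsum_eq_sum_of_support_subset (s := z.support) _ (by simp)]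
  rfl

theorem dg_map {α β : Type} (g : α → β) (z : α →₀ ℤ) : dg (Finsupp.mapDomain g z) = dg z :=
  P297.deg_mapDomain g z

variable (S : Surf K)

theorem mult_rst (C : Crv S.W) {D : Div S.W} (h0 : 0 ≤ D) (hD : D C = 0) (x : Pt S.W) :
    (mult x C.cl D : ℤ) = Finsupp.mapDomain (S.pt C) (S.rst C D) x := by
  rw [P297.mapDomain_apply_finsum]
  by_cases hx : x.On C
  swap
  · rw [Surf.mult_eq_zero hx]
    haveI : IsEmpty {w // S.pt C w = x} := ⟨fun w => hx ((on_iff S C x).2 ⟨w.1, w.2⟩)⟩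
    rw [finsum_of_isEmpty]
    rfl
  have hL := S.all.toLoc
  have hs := S.eqn_spec x D
  rw [(Surf.mult_eq hL hx hD ⟨_, Surf.gen_mem hL h0 hs⟩ hs).2]
  refine finsum_eq_of_bijective (Subtype.map P297.H2.toPlk fun w hw =>
    (pt_iff_le S C _ x).2 (by rw [pl_toPlk]; exact (Crv.le_cv_iff hx).2 hw))
    ⟨Subtype.map_injective _ P297.H2.toPlk_bij.1, fun w => ⟨⟨pl S C w.1,
      (Crv.le_cv_iff hx).1 ((pt_iff_le S C _ x).1 w.2)⟩, Subtype.ext (toPlk_pl S C w.1)⟩⟩
    fun w => ?_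
  have h1 : S.pt C (P297.H2.toPlk w.1) = x :=
    (pt_iff_le S C _ x).2 (by rw [pl_toPlk]; exact (Crv.le_cv_iff hx).2 w.2)
  change _ = S.rst C D (P297.H2.toPlk w.1)
  rw [rst_apply S C D hD _ (S.eqn x D) (h1.symm ▸ hs), ord_pl, pl_toPlk,
    C.rs_of_mem (hx _ (Surf.gen_mem hL h0 hs))]
  rfl

theorem dg_eff (C : Crv S.W) {D : Div S.W} (h0 : 0 ≤ D) (hD : D C = 0) :
    dg (S.rst C D) = inter D C.cl := by
  rw [inter_comm, inter_eq S.all.inte (Finsupp.single_nonneg.2 zero_le_one) h0 fun C' => by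
    by_cases e : C' = C
    · exact Or.inr (e ▸ hD)
    · exact Or.inl (Finsupp.single_eq_of_ne e), ← dg_map (S.pt C), dg_finsum]
  exact finsum_congr fun x => (mult_rst S C h0 hD x).symm

theorem dg_rst (C : Crv S.W) (D : Div S.W) (hD : D C = 0) : dg (S.rst C D) = inter D C.cl := by
  have h1 : (D ⊔ 0) C = 0 := by simp [Finsupp.sup_apply, hD]
  have h2 : (-D ⊔ 0) C = 0 := by simp [Finsupp.sup_apply, hD]
  have h3 : D = (D ⊔ 0) - (-D ⊔ 0) := (posPart_sub_negPart D).symm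
  have h4 := S.all.toRR.add D (-D ⊔ 0) C.cl
  rw [← sub_eq_iff_eq_add.1 h3.symm] at h4
  have h5 := rst_sub S C _ _ h1 h2
  rw [← h3] at h5
  rw [h5, map_sub, dg_eff S C le_sup_right h1, dg_eff S C le_sup_right h2, h4, add_sub_cancel_right]

theorem rst_nonneg (C : Crv S.W) (D : Div S.W) (hD : D C = 0) (w : Plk ℂ C.Fn)
    (h : ∀ C', (S.pt C w).On C' → 0 ≤ D C') :
    0 ≤ S.rst C D w ∧ (S.rst C D w = 0 ↔ ∀ C', (S.pt C w).On C' → D C' = 0) := by
  have hs := S.eqn_spec (S.pt C w) D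
  rw [rst_apply S C D hD w _ hs]
  generalize S.eqn (S.pt C w) D = s at hs
  have h1 : s ∈ (S.pt C w).ring := (S.all.normal _ _).1 (Or.inr fun C' hC' => by
    rw [gen_ord hs hC', Finsupp.zero_apply, add_zero]; exact h C' hC')
  have h2 := rs_ne hs.1 ((gen_ord hs (pt_on S C w)).trans hD)
  refine ⟨((P019P.mem_iff_ord w _).1 (rs_mem S C w h1)).resolve_left h2, fun h3 C' hC' => ?_,
    fun h3 => ?_⟩
  · have h4 : ¬ (S.pt C w).Van s := fun hv => by
      have := ((pt_van S C w s h1).1 hv).resolve_left h2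
      omega
    rw [← gen_ord hs hC']
    exact Pl.ord_unit _ (hC' _ h1) (hC' _ (Pt.inv_mem h1 h4).2)
  · exact (ord_unit S C w hs.1 h1
      (unit_of S _ fun C' hC' => (gen_ord hs hC').trans (h3 C' hC')).2).2

theorem sec (C : Crv S.W) (D : Div S.W) (hD : D C = 0) (w : Plk ℂ C.Fn) (f : K)
    (hf : f ∈ stalk (S.pt C w) D) : f ∈ C.pl.ring ∧ C.rs f ∈ Mge w (- S.rst C D w) := by
  by_cases h0 : f = 0
  · subst h0
    exact ⟨zero_mem _, Or.inl C.rs_zero⟩
  have hs := S.eqn_spec (S.pt C w) D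
  rw [rst_apply S C D hD w _ hs]
  generalize S.eqn (S.pt C w) D = s at hs
  have h1 : f ∈ C.pl.ring := by
    have := hf.resolve_left h0 C (pt_on S C w)
    rw [hD, add_zero] at this
    exact (Pl.ord_nonneg_iff _ h0).1 this
  have h2 : s ∈ stalk (S.pt C w) (-D) := Or.inr fun C' hC' => (hs.2 C' hC').ge
  have h3 := mul_mem_secOn hf h2
  rw [add_neg_cancel] at h3
  have h4 := rs_mem S C w ((S.all.normal _ _).1 h3)
  have h5 := (gen_ord hs (pt_on S C w)).trans hD
  rw [C.rs_mul h1 (mem_of_ord hs.1 h5)] at h4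
  refine ⟨h1, P019P.mem_Mge.2 ?_⟩
  by_cases h6 : C.rs f = 0
  · exact Or.inl h6
  have h7 := ((P019P.mem_iff_ord w _).1 h4).resolve_left (mul_ne_zero h6 (rs_ne hs.1 h5))
  rw [P019P.ord_mul w h6 (rs_ne hs.1 h5)] at h7
  exact Or.inr (by omega)

theorem sec_glob (C : Crv S.W) (D : Div S.W) (hD : D C = 0) (f : K)
    (hf : ∀ x : Pt S.W, x.On C → f ∈ stalk x D) : C.rs f ∈ LL ℂ (S.rst C D) :=
  P019P.mem_LL_iff.2 fun w => (sec S C D hD w f (hf _ (pt_on S C w))).2

theorem neg (C : Crv S.W) (Y : Div S.W) (h : K) (h0 : h ≠ 0) (h1 : C.ord h + Y C = 0)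
    (h2 : ∀ x : Pt S.W, x.On C → ∃ g ∈ stalk x Y, g - h ∈ secAt C (Y - C.cl)) :
    0 ≤ inter Y C.cl := by
  have hL := S.all.toLoc.toLoc2
  have h3 : (Y + div S.W h) C = 0 := by
    rw [Finsupp.add_apply, div_apply hL, add_comm, h1]
  rw [← inter_lin S.all.toRR _ _ h0, ← dg_rst S C _ h3, ← map_zero dg]
  refine P019P.dg_mono fun w => ?_
  obtain ⟨g, h4, h5⟩ := h2 _ (pt_on S C w)
  have h6 : g / h ∈ stalk (S.pt C w) (Y + div S.W h) :=
    (mem_secOn_div hL h0 _).2 (by rwa [div_mul_cancel₀ _ h0])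
  obtain ⟨h7, h8⟩ := sec S C _ h3 w _ h6
  have h9 : C.rs (g / h) = 1 := by
    rw [← sub_eq_zero, ← C.rs_one, ← C.rs_sub h7 (one_mem _),
      C.rs_eq_zero (sub_mem h7 (one_mem _)), show g / h - 1 = (g - h) / h by field_simp]
    by_cases e : g - h = 0
    · exact Or.inl (by rw [e, zero_div])
    have a1 := (mem_secAt.1 h5).resolve_left e
    rw [Finsupp.sub_apply, Finsupp.single_eq_same] at a1
    unfold Crv.ord at *
    rw [Pl.ord_div _ e h0]
    exact Or.inr (by omega)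
  rw [h9] at h8
  have a2 := (P019P.mem_Mge.1 h8).resolve_left one_ne_zero
  rw [P019P.ord_one] at a2
  rw [Finsupp.zero_apply]
  omega

end CsH

/-- The restriction of divisors to the normalisation of a curve. -/
theorem cs : CS := fun _ _ _ S =>
  { pt_iff := CsH.pt_iff S
    pt_van := CsH.pt_van S
    on_iff := CsH.on_iff S
    fin_pt := CsH.fin_pt S
    rst_apply := CsH.rst_apply S
    rst_add := CsH.rst_add S
    rst_zsmul := CsH.rst_zsmul S
    rst_div := CsH.rst_div S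
    dg_rst := CsH.dg_rst S
    rst_nonneg := CsH.rst_nonneg S
    sec := CsH.sec S
    sec_glob := CsH.sec_glob S
    neg := CsH.neg S }

end Vale.Agent.P297Z.Sf
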