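import Vale.Agent.P297Y.Alg.Sk

/-! P297, positive irregularity: principal cycles on curves, and the bound for the genus. -/

set_option linter.all false

namespace Vale.Agent.P297Z.Sf

open Vale.Agent.P019P (CFF Plk LL gen dg dv prn)

variable {K : Type} [Field K] [Algebra ℂ K]

namespace KG

variable {S : Surf K}

/-- The local multiplicities are the image of the restricted divisor. -/
theorem mult_rst (h : S.Cs) (C : Crv S.W) {D : Div S.W} (hD : 0 ≤ D) (hC : D C = 0)
    (x : Pt S.W) : (mult x C.cl D : ℤ) = Finsupp.mapDomain (S.pt C) (S.rst C D) x := by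
  rw [P297.mapDomain_apply_finsum]
  by_cases hx : x.On C
  swap
  · rw [Surf.mult_eq_zero hx]
    haveI : IsEmpty {w // S.pt C w = x} := ⟨fun w => hx ((h.on_iff C x).2 ⟨w.1, w.2⟩)⟩
    rw [finsum_of_isEmpty]
    simp
  obtain ⟨s, hs⟩ := S.all.gen x (-D)
  have hm := Surf.gen_mem S.all.toLoc hD hs
  have e : ∀ f (hf : f ∈ x.ring), C.rs f = C.rho hx ⟨f, hf⟩ := fun f hf => C.rs_of_mem (hx f hf)
  rw [(Surf.mult_eq S.all.toLoc hx hC ⟨s, hm⟩ hs).2]
  refine finsum_eq_of_bijective (Subtype.map P297.H2.toPlk fun w hw =>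
    (h.pt_iff C _ x).2 fun f hf => ⟨hx f hf, e f hf ▸ hw ⟨f, hf⟩⟩)
    ⟨Subtype.map_injective _ P297.H2.toPlk_bij.1, fun w => ?_⟩ fun w => ?_
  · obtain ⟨w, hw⟩ := w
    obtain ⟨v, rfl⟩ := P297.H2.toPlk_bij.2 w
    exact ⟨⟨v, fun r => e r r.2 ▸ ((h.pt_iff C _ x).1 hw r r.2).2⟩, rfl⟩
  · have h1 : S.pt C (P297.H2.toPlk w.1) = x :=
      (h.pt_iff C _ x).2 fun f hf => ⟨hx f hf, e f hf ▸ w.2 ⟨f, hf⟩⟩
    change _ = S.rst C D (P297.H2.toPlk w.1)
    rw [h.rst_apply C D hC _ s (h1.symm ▸ hs), P297.H2.ord_toPlk, e s hm]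

theorem sum_mult (h : S.Cs) (C : Crv S.W) {D : Div S.W} (hD : 0 ≤ D) (hC : D C = 0) {Q : Type}
    [AddCommGroup Q] (c : Pt S.W → Q) :
    ∑ᶠ x, mult x C.cl D • c x = S.cyc c C (S.rst C D) := by
  have h1 : ∀ x, mult x C.cl D • c x = Finsupp.mapDomain (S.pt C) (S.rst C D) x • c x :=
    fun x => by rw [← mult_rst h C hD hC, natCast_zsmul]
  rw [finsum_congr h1, finsum_eq_sum_of_support_subset
    (s := (Finsupp.mapDomain (S.pt C) (S.rst C D)).support) _ fun x hx =>
      Finsupp.mem_support_iff.2 fun e => hx (by simp only [e, zero_smul])]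
  exact Finsupp.sum_mapDomain_index (h := fun x (n : ℤ) => n • c x) (fun _ => zero_smul _ _)
    fun _ _ _ => add_smul _ _ _

theorem fin_H0 (D : Div S.W) : FiniteDimensional ℂ (H0 D) := by
  have := (S.all.fg D).1 0
  rwa [M, zero_smul, add_zero] at this

theorem mem_ring {C : Crv S.W} {D : Div S.W} (hC : D C = 0) {f : K} (hf : f ∈ H0 D) :
    f ∈ C.pl.ring := by
  by_cases h0 : f = 0
  · exact h0 ▸ zero_mem _
  have := hf.resolve_left h0 C trivial
  rw [hC, add_zero] at this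
  exact (Pl.ord_nonneg_iff _ h0).1 this

/-- The restriction of sections to a curve. -/
theorem h0_le (h : S.Cs) (C : Crv S.W) {D : Div S.W} (hC : D C = 0) :
    h0 D ≤ h0 (D - C.cl) + Module.finrank ℂ (LL ℂ (S.rst C D)) := by
  classical
  haveI := fin_H0 D
  haveI := fin_H0 (D - C.cl)
  let φ : H0 D →ₗ[ℂ] LL ℂ (S.rst C D) :=
    { toFun := fun f => ⟨C.rs f, h.sec_glob C D hC f fun x _ =>
        secOn_mono (fun _ _ => ⟨trivial, le_rfl⟩) f.2⟩
      map_add' := fun f g => Subtype.ext (C.rs_add (mem_ring hC f.2) (mem_ring hC g.2))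
      map_smul' := fun a f => Subtype.ext (C.rs_smul a (mem_ring hC f.2)) }
  have h1 : LinearMap.ker φ ≤ (H0 (D - C.cl)).comap (H0 D).subtype := fun f hf => by
    have h2 : C.rs f = 0 := congrArg Subtype.val hf
    by_cases h0 : (f : K) = 0
    · exact Or.inl h0
    have h3 := ((C.rs_eq_zero (mem_ring hC f.2)).1 h2).resolve_left h0
    refine Or.inr fun C' _ => ?_
    have h4 := f.2.resolve_left h0 C' trivial
    rw [Finsupp.sub_apply, Finsupp.single_apply]
    change 0 ≤ C'.ord (f : K) + _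
    split_ifs with e
    · subst e
      omega
    · omega
  have h2 := Submodule.finrank_mono h1
  have h3 : H0 (D - C.cl) ≤ H0 D := secOn_mono fun C' _ =>
    ⟨trivial, sub_le_self D (Finsupp.single_nonneg.2 zero_le_one) C'⟩
  rw [(Submodule.comapSubtypeEquivOfLe h3).finrank_eq] at h2
  have h4 := φ.finrank_range_add_finrank_ker
  have h5 := (LinearMap.range φ).finrank_le
  unfold h0
  omega

end KG

open KG

theorem killp (h : CS) : KILLP := by
  rintro K _ _ S Q _ c hc C _ ⟨u, hu, rfl⟩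
  have h := h K S
  obtain ⟨f, hf, rfl⟩ := C.rs_surj u
  obtain ⟨h0, h1⟩ := not_or.1 ((C.rs_eq_zero hf).not.1 hu)
  have h2 : C.ord f = 0 := le_antisymm (not_lt.1 h1) (Pl.ord_nonneg_of_mem _ hf)
  have h3 : div S.W f C = 0 := (div_apply S.all.toLoc2 f C).trans h2
  let D : Div S.W := (div S.W f).mapRange (fun n => max n 0) (max_self 0)
  have d1 : 0 ≤ D := fun C' => le_max_right _ _
  have d2 : 0 ≤ D - div S.W f := sub_nonneg.2 fun C' => le_max_left _ _
  have d3 : D C = 0 := by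
    change max (div S.W f C) 0 = 0
    rw [h3, max_self]
  have d4 : (D - div S.W f) C = 0 := by rw [Finsupp.sub_apply, d3, h3, sub_self]
  have h4 := hc C D _ f d1 d2 d3 d4 h0 (sub_sub_cancel _ _).symm
  rw [sum_mult h C d1 d3, sum_mult h C d2 d4] at h4
  have h5 := h.rst_add C _ _ d4 h3
  rw [sub_add_cancel, h.rst_div C f h0 h2] at h5
  rw [h5, map_add] at h4
  simpa using h4

theorem gle (h : CS) : GLE := by
  intro K _ _ S C
  have h := h K S
  obtain ⟨m₁, h1⟩ := S.all.large 0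
  obtain ⟨m₂, h2⟩ := S.all.large (-C.cl)
  obtain ⟨m, e1, e2, e3, e4⟩ : ∃ m : ℤ, m₁ ≤ m ∧ m₂ ≤ m ∧ 0 ≤ m ∧ dg (P019P.can ℂ C.Fn) < m :=
    ⟨max (max m₁ m₂) (max 0 (dg (P019P.can ℂ C.Fn) + 1)), by omega, by omega, by omega, by omega⟩
  obtain ⟨g, hg, h3⟩ := S.all.move {C} fun _ => -(m • S.H) C
  have hL := S.all.toLoc2
  have hC : (m • S.H + div S.W g) C = 0 := by
    rw [Finsupp.add_apply, div_apply hL, h3 C (Finset.mem_singleton_self C), add_neg_cancel]
  have h4 := h0_le h C hC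
  have h5 : inter (m • S.H + div S.W g) C.cl = m * inter S.H C.cl := by
    rw [inter_lin S.all.toRR _ _ hg, ← S.B_apply, map_zsmul, AddMonoidHom.zsmul_apply,
      smul_eq_mul, S.B_apply]
  have h6 := S.all.crv C
  rw [P019P.RR_large (by rw [h.dg_rst C _ hC, h5]; nlinarith), h.dg_rst C _ hC] at h4
  have h7 : h0 (m • S.H + div S.W g) = chi (m • S.H + div S.W g) := by
    have := h1 m e1
    rw [zero_add] at this
    rw [h0_lin hL _ hg, chi_lin hL _ hg, this]
  have h8 : h0 (m • S.H + div S.W g - C.cl) = chi (m • S.H + div S.W g - C.cl) := by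
    rw [show m • S.H + div S.W g - C.cl = -C.cl + m • S.H + div S.W g by abel,
      h0_lin hL _ hg, chi_lin hL _ hg, h2 m e2]
  rw [h7, h8] at h4
  generalize m • S.H + div S.W g = D at h4
  have r1 := S.all.rr D
  have r2 := S.all.rr (D - C.cl)
  simp only [← S.B_apply, map_sub, AddMonoidHom.sub_apply] at r2
  simp only [S.B_apply] at r2
  rw [inter_comm C.cl D] at r2
  unfold Surf.ag
  omega

end Vale.Agent.P297Z.Sf
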