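import Vale.Agent.P297Y.Alg.Sk
import Vale.Agent.P297Y.An.Par
import Mathlib.RingTheory.Valuation.LocalSubring

/-! P297, positive irregularity: the fibres of a pencil. -/

set_option linter.all false

open IsLocalRing

namespace Vale.Agent.P297Z.Sf

open Vale.Agent.P019P (CFF Plk LL dv)

variable {K : Type} [Field K] [Algebra ℂ K] {S : Surf K}

namespace PenB

/-- A function which vanishes at a point vanishes along a curve through the point. -/
theorem exists_pos (x : Pt S.W) {f : K} (hf : x.Van f) (h0 : f ≠ 0) :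
    ∃ C, x.On C ∧ 0 < C.ord f := by
  by_contra hc
  push Not at hc
  refine hf.2.resolve_left h0 ((S.all.normal x _).1 (Or.inr fun C hC => ?_))
  have := hc C hC
  unfold Crv.ord at *
  rw [Pl.ord_inv, Finsupp.zero_apply]
  omega

/-- Infinitely many curves pass through a point. -/
theorem inf_crv (x : Pt S.W) (C₀ : Crv S.W) (h₀ : x.On C₀) :
    {C : Crv S.W | x.On C}.Infinite := by
  intro hf
  obtain ⟨w, hW, hw⟩ := x.exists_in
  obtain ⟨m, hm, -, h1⟩ := S.all.pt_chart x w hW hw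
  choose p hp h0 h2 h4 h3 using fun C : {C : Crv S.W | x.On C} =>
    S.all.crv_chart C.1 w hW (Pt.On.crv_in C.2 hw)
  have : Finite {C : Crv S.W | x.On C} := hf
  have key : (m : Set (chart S.W w)) ⊆ ⋃ i ∈ Set.univ, (p i : Set (chart S.W w)) := by
    intro a ha
    simp only [Set.mem_iUnion]
    by_cases a0 : (a : K) = 0
    · exact ⟨⟨C₀, h₀⟩, trivial, (h3 _ a).2 (Or.inl a0)⟩
    · obtain ⟨C, c1, c2⟩ := exists_pos x ((h1 a).1 ha) a0
      exact ⟨⟨C, c1⟩, trivial, (h3 _ a).2 (Or.inr c2)⟩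
  obtain ⟨C, -, hC⟩ := (Ideal.subset_union_prime_finite Set.finite_univ ⟨C₀, h₀⟩
    ⟨C₀, h₀⟩ fun i _ _ _ => hp i).1 key
  exact h2 C (hm.eq_of_le (hp C).ne_top hC ▸ hm)

variable (P : Pen S)

theorem ne {f : P.k} (hf : f ≠ 0) : (f : K) ≠ 0 := fun e => hf (Subtype.ext e)

theorem unif_ne (p : Plk ℂ P.k) : P.unif p ≠ 0 := (P019P.exists_unif p).choose_spec.1

theorem unif_ord (p : Plk ℂ P.k) : P019P.ord p (P.unif p) = 1 :=
  (P019P.exists_unif p).choose_spec.2

theorem unif_van (x : Pt S.W) : x.Van (P.unif (P.π x)) :=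
  (P.isPi x _).2 (by rw [unif_ord]; exact one_pos)

theorem dich (C : Crv S.W) : P.Hor C ∨ ∃ p, P.Over C p := by
  refine or_iff_not_imp_left.2 fun h => ?_
  refine ⟨⟨C.pl.ring.comap (algebraMap P.k K), fun c => C.const_mem c, fun e => h fun f => ?_⟩,
    fun f => Iff.rfl⟩
  exact show f ∈ C.pl.ring.comap (algebraMap P.k K) from e ▸ ValuationSubring.mem_top _

theorem not_hor (C : Crv S.W) (p : Plk ℂ P.k) (h : P.Over C p) : ¬ P.Hor C := fun h1 =>
  p.2.2 (eq_top_iff.2 fun f _ => (h f).2 (h1 f))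

theorem uniq (C : Crv S.W) (p q : Plk ℂ P.k) (h : P.Over C p) (h' : P.Over C q) : p = q :=
  P019P.Plk.eq_of_le fun z hz => (h' z).2 ((h z).1 hz)

theorem pi_eq (C : Crv S.W) (p : Plk ℂ P.k) (x : Pt S.W) (h : P.Over C p) (hx : x.On C) :
    P.π x = p := by
  refine P019P.Plk.eq_of_le fun z hz => (h z).2 (hx _ ?_)
  rcases (P019P.mem_iff_ord _ _).1 hz with rfl | h1
  · exact zero_mem _
  · exact (P.isPi x z).1 h1

theorem fib_apply (p : Plk ℂ P.k) (C : Crv S.W) :
    P.fib p C = open Classical in if P.Over C p then C.ord (P.unif p) else 0 := by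
  refine toDiv_apply ((S.all.fin_div (P.unif p)).subset fun C hC => ?_) C
  rw [Function.mem_support] at hC ⊢
  intro e
  exact hC (by simp only [e, ite_self])

theorem fib_over {C : Crv S.W} {p : Plk ℂ P.k} (h : P.Over C p) :
    P.fib p C = C.ord (P.unif p) := by
  rw [fib_apply, if_pos h]

theorem fib_zero (C : Crv S.W) (p : Plk ℂ P.k) (h : ¬ P.Over C p) : P.fib p C = 0 := by
  rw [fib_apply, if_neg h]

theorem fib_pos (C : Crv S.W) (p : Plk ℂ P.k) (h : P.Over C p) : 0 < P.fib p C := by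
  rw [fib_over P h]
  refine Pl.ord_pos_of_inv_notMem _ fun b => ?_
  have := ((P019P.mem_iff_ord p _).1 ((h (P.unif p)⁻¹).2 b)).resolve_left
    (inv_ne_zero (unif_ne P p))
  rw [P019P.ord_inv, unif_ord] at this
  omega

theorem ord_over (C : Crv S.W) (p : Plk ℂ P.k) (h : P.Over C p) (f : P.k) :
    C.ord f = P.fib p C * P019P.ord p f := by
  by_cases f0 : f = 0
  · rw [f0, P019P.ord_zero, mul_zero]
    exact Pl.ord_zero _
  rw [fib_over P h]
  have π0 := unif_ne P p
  have hπ := unif_ord P p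
  generalize P.unif p = π at *
  have z0 : π ^ P019P.ord p f ≠ 0 := zpow_ne_zero _ π0
  have c1 : P019P.ord p (f * (π ^ P019P.ord p f)⁻¹) = 0 := by
    rw [P019P.ord_mul p f0 (inv_ne_zero z0), P019P.ord_inv, P019P.ord_zpow, hπ]
    ring
  have c2 := Pl.ord_unit C.pl ((h _).1 ((P019P.mem_iff_ord p _).2 (Or.inr c1.ge)))
    ((h (f * (π ^ P019P.ord p f)⁻¹)⁻¹).1 ((P019P.mem_iff_ord p _).2
      (Or.inr (by rw [P019P.ord_inv, c1]; exact le_rfl))))
  have c3 : ((f * (π ^ P019P.ord p f)⁻¹ : P.k) : K) = f / (π : K) ^ P019P.ord p f := by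
    show algebraMap P.k K (f * (π ^ P019P.ord p f)⁻¹) = _
    rw [map_mul, map_inv₀, map_zpow₀, div_eq_mul_inv]
    rfl
  rw [c3, Pl.ord_div _ (ne P f0) (zpow_ne_zero _ (ne P π0)), Pl.ord_zpow] at c2
  unfold Crv.ord
  linarith

theorem ord_hor (C : Crv S.W) (h : P.Hor C) (f : P.k) : C.ord f = 0 :=
  Pl.ord_unit _ (h f) (h f⁻¹)

theorem ex_over (x : Pt S.W) : ∃ C, x.On C ∧ P.Over C (P.π x) := by
  obtain ⟨C, h1, h2⟩ := exists_pos x (unif_van P x) (ne P (unif_ne P _))
  rcases dich P C with h | ⟨q, h⟩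
  · rw [ord_hor P C h] at h2
    exact absurd h2 (lt_irrefl _)
  · exact ⟨C, h1, pi_eq P C q x h h1 ▸ h⟩

theorem ex_crv (p : Plk ℂ P.k) : ∃ C, P.Over C p := by
  obtain ⟨C, hC⟩ := ParA.exists_crv S.all P.k p
  exact ⟨C, fun f => (hC f).symm⟩

theorem ex_hor (x : Pt S.W) : ∃ C, x.On C ∧ P.Hor C := by
  obtain ⟨C₀, h₀, -⟩ := ex_over P x
  obtain ⟨C, h1, h2⟩ := (inf_crv x C₀ h₀).exists_notMem_finite (S.all.fin_div (P.unif (P.π x)))
  refine ⟨C, h1, (dich P C).resolve_right ?_⟩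
  rintro ⟨q, h⟩
  have h3 := fib_pos P C q h
  rw [fib_over P h, ← pi_eq P C q x h h1] at h3
  exact h2 h3.ne'

theorem pull_over (C : Crv S.W) (p : Plk ℂ P.k) (h : P.Over C p) (D : Plk ℂ P.k →₀ ℤ) :
    P.pull D C = P.fib p C * D p := by
  induction D using Finsupp.induction_linear with
  | zero => simp
  | add f g hf hg => rw [map_add, Finsupp.add_apply, Finsupp.add_apply, hf, hg, mul_add]
  | single q n =>
    rw [P.pull_single, Finsupp.smul_apply, smul_eq_mul]
    by_cases e : q = p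
    · rw [e, Finsupp.single_eq_same, mul_comm]
    · rw [fib_zero P C q fun h' => e (uniq P C q p h' h), Finsupp.single_eq_of_ne' e, mul_zero,
        mul_zero]

theorem pull_hor (C : Crv S.W) (h : P.Hor C) (D : Plk ℂ P.k →₀ ℤ) : P.pull D C = 0 := by
  induction D using Finsupp.induction_linear with
  | zero => simp
  | add f g hf hg => rw [map_add, Finsupp.add_apply, hf, hg, add_zero]
  | single q n =>
    rw [P.pull_single, Finsupp.smul_apply, fib_zero P C q fun h' => not_hor P C q h' h, smul_zero]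

theorem pull_dv (f : P.k) : P.pull (dv ℂ f) = div S.W f := by
  ext C
  rw [div, toDiv_apply (S.all.fin_div _)]
  rcases dich P C with h | ⟨q, h⟩
  · rw [pull_hor P C h, ord_hor P C h]
  · rw [pull_over P C q h, ord_over P C q h, P019P.dv_apply]

theorem gen_pull (x : Pt S.W) (D : Plk ℂ P.k →₀ ℤ) (f : P.k) (f0 : f ≠ 0)
    (e : P019P.ord (P.π x) f = D (P.π x)) : GenAt x (- P.pull D) f := by
  refine ⟨ne P f0, fun C hC => ?_⟩
  rw [Finsupp.neg_apply]
  rcases dich P C with h | ⟨q, h⟩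
  · rw [pull_hor P C h, ord_hor P C h, neg_zero, add_zero]
  · rw [pull_over P C q h, ord_over P C q h, ← pi_eq P C q x h hC, e, add_neg_cancel]

theorem vert (f : K) (hf : ∀ C, P.Hor C → f ∈ C.pl.ring) : f ∈ P.k := by
  by_contra hc
  have : IsIntegrallyClosedIn P.k.toSubring K := isIntegrallyClosedIn_iff.2
    ⟨Subtype.val_injective, fun {z} hz =>
      ⟨⟨z, P.closed z (IsIntegral.isAlgebraic (R := P.k) hz)⟩, rfl⟩⟩
  obtain ⟨V, h1, h2⟩ := Subring.exists_le_valuationSubring_of_isIntegrallyClosedIn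
    (R := P.k.toSubring) hc
  have h3 : ∀ g : P.k, (g : K) ∈ V := fun g => h1 g.2
  have h4 : ∀ c, algebraMap ℂ K c ∈ V := fun c => h3 (algebraMap ℂ P.k c)
  obtain ⟨i, hi⟩ := S.all.center V h4
  let O : Subalgebra ℂ K := { V.toSubring with algebraMap_mem' := h4 }
  have : IsLocalRing O := inferInstanceAs (IsLocalRing V)
  have h5 : chart S.W (S.x i) ≤ O := chart_le hi
  have h6 := loc_ctr_le h5
  by_cases h7 : ctr h5 = ⊥
  · have := S.model.frac _ (S.x_mem i) (S.x_ne i)
    obtain ⟨a, b, hb, rfl⟩ := IsFractionRing.div_surjective (A := chart S.W (S.x i)) f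
    have b0 := nonZeroDivisors.ne_zero hb
    exact h2 (h6 ⟨a, b, by rw [h7]; exact b0,
      div_mul_cancel₀ _ fun o => b0 (Subtype.ext o)⟩)
  by_cases h8 : (ctr h5).IsMaximal
  · let x : Pt S.W := ⟨loc _ _ h8.isPrime, _, S.x_mem i, S.x_ne i, _, h8, rfl⟩
    obtain ⟨⟨a, b, hb, e⟩, h9⟩ := unif_van P x
    have u0 := ne P (unif_ne P (P.π x))
    refine h9.resolve_left u0 ⟨b, a, ?_, by rw [← e, inv_mul_cancel_left₀ u0]⟩
    rw [mem_ctr, not_or, not_not] at hb ⊢
    rw [← e, mul_inv]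
    exact ⟨mul_ne_zero u0 hb.1, mul_mem (h3 (P.unif (P.π x))⁻¹) hb.2⟩
  · obtain ⟨C, hC⟩ := S.all.crv_of_prime _ (S.x_mem i) (S.x_ne i) _ (ctr_isPrime h5) h7 h8
    have e : C.pl.ring = V := Pl.ring_eq_of_le (fun g hg => h6 ((hC g).1 hg))
      fun o => h2 (o ▸ ValuationSubring.mem_top _)
    exact h2 (e ▸ hf C fun g => e ▸ h3 g)

theorem mem_pull (D : Plk ℂ P.k →₀ ℤ) (f : K) :
    f ∈ H0 (P.pull D) ↔ ∃ g ∈ LL ℂ D, (g : K) = f := by
  constructor
  · intro h
    by_cases f0 : f = 0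
    · exact ⟨0, zero_mem _, f0.symm⟩
    have h1 := fun C => h.resolve_left f0 C trivial
    have h2 := vert P f fun C hC => (Pl.ord_nonneg_iff _ f0).1 (by
      simpa [pull_hor P C hC] using h1 C)
    refine ⟨⟨f, h2⟩, Or.inr fun p => ?_, rfl⟩
    obtain ⟨C, hC⟩ := ex_crv P p
    have h3 := h1 C
    rw [pull_over P C p hC, ord_over P C p hC ⟨f, h2⟩, ← mul_add] at h3
    have h4 := nonneg_of_mul_nonneg_right h3 (fib_pos P C p hC)
    omega
  · rintro ⟨g, h | h, rfl⟩
    · rw [h]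
      exact zero_mem _
    refine Or.inr fun C _ => ?_
    rcases dich P C with h1 | ⟨q, h1⟩
    · rw [pull_hor P C h1, ord_hor P C h1]
      exact le_rfl
    · rw [pull_over P C q h1, ord_over P C q h1, ← mul_add]
      have := h q
      exact mul_nonneg (fib_pos P C q h1).le (by omega)

theorem h0_pull (D : Plk ℂ P.k →₀ ℤ) : h0 (P.pull D) = Module.finrank ℂ (LL ℂ D) := by
  have e : H0 (P.pull D) = (LL ℂ D).map P.k.val.toLinearMap := by
    ext f
    rw [mem_pull]
    rfl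
  rw [h0, e, ← (Submodule.equivMapOfInjective P.k.val.toLinearMap Subtype.val_injective
    (LL ℂ D)).finrank_eq]

end PenB

open PenB in
theorem penb : PENB := fun K _ _ S P =>
  { dich := dich P
    not_hor := not_hor P
    uniq := uniq P
    pi_eq := pi_eq P
    ord_over := ord_over P
    ord_hor := ord_hor P
    fib_pos := fib_pos P
    fib_zero := fib_zero P
    ex_over := ex_over P
    ex_crv := ex_crv P
    ex_hor := ex_hor P
    pull_over := pull_over P
    pull_hor := pull_hor P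
    pull_dv := fun f _ => pull_dv P f
    gen_pull := gen_pull P
    vert := vert P
    mem_pull := mem_pull P
    h0_pull := h0_pull P }

end Vale.Agent.P297Z.Sf
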