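import Vale.Agent.P297Y.Alg.Sk
import Vale.Agent.P297Y.Ctr.Hodge

/-! P297, positive irregularity: the intersection numbers of the fibres of a pencil. -/

set_option linter.all false

namespace Vale.Agent.P297Z.Sf

open Vale.Agent.P019P (CFF Plk LL Mge gen dg dv prn)
open P025H492 (down wdv)

variable {K : Type} [Field K] [Algebra ℂ K] {S : Surf K} {P : Pen S}

namespace Penn

theorem down_eq (hC : S.Cs) (C : Crv S.W) [Fact (P.Hor C)] (w : Plk ℂ C.Fn) :
    down P.k w = P.π (S.pt C w) := by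
  refine (P019P.Plk.eq_of_le fun f hf => ?_).symm
  rw [P025H492.mem_down, P.algebraMap_fn]
  exact ((hC.pt_iff C w _).1 rfl f ((P.isPi _ f).1 (P025H492.ord_nonneg_of_mem _ hf))).2

theorem rst_pull (hC : S.Cs) (hB : P.Bas) (C : Crv S.W) [h : Fact (P.Hor C)]
    (D : Plk ℂ P.k →₀ ℤ) : S.rst C (P.pull D) = P025H492.pull C.Fn D := by
  ext w
  obtain ⟨f, f0, hf⟩ := P019P.exists_ord_eq {P.π (S.pt C w)} D
  have h1 := hf _ (Finset.mem_singleton_self _)
  rw [hC.rst_apply C _ (hB.pull_hor C h.out D) w f (hB.gen_pull _ D f f0 h1), ← P.algebraMap_fn,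
    P025H492.ord_algebraMap, P025H492.pull_apply, down_eq hC, h1]

theorem num_hor (hC : S.Cs) (hB : P.Bas) (C : Crv S.W) [h : Fact (P.Hor C)]
    (D : Plk ℂ P.k →₀ ℤ) : inter (P.pull D) C.cl = Module.finrank P.k C.Fn * dg D := by
  rw [← hC.dg_rst C _ (hB.pull_hor C h.out D), rst_pull hC hB, P025H492.dg_pull]

theorem num_over (hC : S.Cs) (hB : P.Bas) {C : Crv S.W} {q : Plk ℂ P.k} (h : P.Over C q)
    (D : Plk ℂ P.k →₀ ℤ) : inter (P.pull D) C.cl = 0 := by
  obtain ⟨f, f0, hf⟩ := P019P.exists_ord_eq {q} fun p => - D p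
  have h1 : (D + dv ℂ f) q = 0 := by
    rw [Finsupp.add_apply, P019P.dv_apply, hf _ (Finset.mem_singleton_self _), add_neg_cancel]
  have h2 : P.pull (D + dv ℂ f) C = 0 := by rw [hB.pull_over C q h, h1, mul_zero]
  have h3 : S.rst C (P.pull (D + dv ℂ f)) = 0 := by
    ext w
    have h4 : P.π (S.pt C w) = q := hB.pi_eq C q _ h ((hC.on_iff C _).2 ⟨w, rfl⟩)
    rw [hC.rst_apply C _ h2 w _ (hB.gen_pull _ _ 1 one_ne_zero (by rw [h4, h1, P019P.ord_one])),
      OneMemClass.coe_one, C.rs_one, P019P.ord_one, Finsupp.zero_apply]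
  have h5 := hC.dg_rst C _ h2
  rw [h3, map_zero, map_add, hB.pull_dv f f0,
    inter_lin S.all.toRR _ _ (by exact_mod_cast f0)] at h5
  exact h5.symm

theorem fib_eq (p : Plk ℂ P.k) : P.fib p = P.pull (Finsupp.single p 1) := by
  rw [P.pull_single, one_smul]

theorem inter_sum (X A : Div S.W) : inter X A = ∑ C ∈ A.support, A C * inter X C.cl := by
  conv_lhs => rw [← S.B_apply, eq_sum_single A, map_sum]
  exact Finset.sum_congr rfl fun C _ => by rw [map_zsmul, smul_eq_mul, S.B_apply]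

theorem deg (hC : S.Cs) (hB : P.Bas) (C : Crv S.W) [Fact (P.Hor C)] :
    inter P.F C.cl = Module.finrank P.k C.Fn := by
  rw [Pen.F, fib_eq, num_hor hC hB, P019P.dg_sgl, mul_one]

theorem F_vert (hC : S.Cs) (hB : P.Bas) (C : Crv S.W) (h : ¬ P.Hor C) : inter P.F C.cl = 0 := by
  obtain ⟨q, hq⟩ := (hB.dich C).resolve_left h
  rw [Pen.F, fib_eq, num_over hC hB hq]

theorem num (hC : S.Cs) (hB : P.Bas) (D : Plk ℂ P.k →₀ ℤ) (A : Div S.W) :
    inter (P.pull D) A = dg D * inter P.F A := by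
  rw [inter_sum, inter_sum P.F, Finset.mul_sum]
  refine Finset.sum_congr rfl fun C _ => ?_
  by_cases h : P.Hor C
  · have : Fact (P.Hor C) := ⟨h⟩
    rw [num_hor hC hB, deg hC hB]
    ring
  · obtain ⟨q, hq⟩ := (hB.dich C).resolve_left h
    rw [num_over hC hB hq, F_vert hC hB C h]
    ring

theorem F_hor (hC : S.Cs) (hB : P.Bas) (C : Crv S.W) (h : P.Hor C) : 0 < inter P.F C.cl := by
  have : Fact (P.Hor C) := ⟨h⟩
  rw [deg hC hB]
  exact_mod_cast Module.finrank_pos

theorem F_vert' (hC : S.Cs) (hB : P.Bas) (A : Div S.W) (hA : ∀ C, P.Hor C → A C = 0) :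
    inter P.F A = 0 := by
  rw [inter_sum]
  refine Finset.sum_eq_zero fun C hc => ?_
  rw [F_vert hC hB C fun h => Finsupp.mem_support_iff.1 hc (hA C h), mul_zero]

theorem F_sq (hC : S.Cs) (hB : P.Bas) : inter P.F P.F = 0 :=
  F_vert' hC hB _ fun C h => hB.fib_zero C _ fun h' => hB.not_hor C _ h' h

theorem F_pos (hB : P.Bas) : 0 < inter S.H P.F := by
  obtain ⟨C, hC⟩ := hB.ex_crv (P019P.nonempty_Plk ℂ P.k).some
  refine Rul.H_pos S.all (fun C' => ?_) (hB.fib_pos C _ hC).ne'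
  by_cases h : P.Over C' (P019P.nonempty_Plk ℂ P.k).some
  · exact (hB.fib_pos C' _ h).le
  · exact (hB.fib_zero C' _ h).ge

end Penn

theorem penn (cs : CS) (penb : PENB) : PENN := fun K _ _ S P =>
  have hC := cs K S
  have hB := penb K S P
  { down_eq := fun C _ w => Penn.down_eq hC C w
    rst_pull := fun C _ D => Penn.rst_pull hC hB C D
    deg := fun C _ => Penn.deg hC hB C
    num := Penn.num hC hB
    num_fib := fun p A => by rw [Penn.fib_eq, Penn.num hC hB, P019P.dg_sgl, one_mul]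
    F_vert := Penn.F_vert hC hB
    F_hor := Penn.F_hor hC hB
    F_vert' := Penn.F_vert' hC hB
    F_sq := Penn.F_sq hC hB
    F_nef := fun C => by
      by_cases h : P.Hor C
      · exact (Penn.F_hor hC hB C h).le
      · exact (Penn.F_vert hC hB C h).ge
    F_pos := Penn.F_pos hB
    vert_sq := fun A hA =>
      Hd.hodge_null S.all (Penn.F_sq hC hB) (Penn.F_pos hB).ne' (Penn.F_vert' hC hB A hA) }

end Vale.Agent.P297Z.Sf
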