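import Vale.Agent.P297Y.Alg.Sk
import Vale.Agent.P297Y.An.Par
import Vale.Agent.P297Y.An.Alb1

/-! The divisors of vector fields and of forms. -/

set_option linter.all false

namespace Vale.Agent.P297Z.Sf

open Vale.Agent.P297 (Place)

variable {K : Type} [Field K] [Algebra ℂ K]

namespace DerA

/-- `n` is the least of the orders of `p` and `q`. -/
structure Mn (P : Place K) (p q : K) (n : ℤ) : Prop where
  ex : (p ≠ 0 ∧ P.ord p = n) ∨ (q ≠ 0 ∧ P.ord q = n)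
  l : p ≠ 0 → n ≤ P.ord p
  r : q ≠ 0 → n ≤ P.ord q

variable {P : Place K} {p q : K} {n m : ℤ}

theorem exists_mn (P : Place K) (h : p ≠ 0 ∨ q ≠ 0) : ∃ n, Mn P p q n := by
  by_cases hp : p = 0
  · exact ⟨_, Or.inr ⟨h.resolve_left (not_not.2 hp), rfl⟩, fun h => absurd hp h, fun _ => le_rfl⟩
  by_cases hq : q = 0
  · exact ⟨_, Or.inl ⟨hp, rfl⟩, fun _ => le_rfl, fun h => absurd hq h⟩
  rcases le_total (P.ord p) (P.ord q) with h | h
  · exact ⟨_, Or.inl ⟨hp, rfl⟩, fun _ => le_rfl, fun _ => h⟩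
  · exact ⟨_, Or.inr ⟨hq, rfl⟩, fun _ => h, fun _ => le_rfl⟩

theorem Mn.unique (h : Mn P p q n) (h' : Mn P p q m) : n = m := by
  have k : ∀ {n m : ℤ}, Mn P p q n → Mn P p q m → n ≤ m := fun h h' =>
    h'.ex.elim (fun e => e.2 ▸ h.l e.1) fun e => e.2 ▸ h.r e.1
  exact le_antisymm (k h h') (k h' h)

theorem Mn.mul (h : Mn P p q n) {c : K} (hc : c ≠ 0) : Mn P (c * p) (c * q) (P.ord c + n) := by
  refine ⟨h.ex.imp (fun e => ⟨mul_ne_zero hc e.1, ?_⟩) fun e => ⟨mul_ne_zero hc e.1, ?_⟩,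
    fun e => ?_, fun e => ?_⟩
  · rw [Pl.ord_mul _ hc e.1, e.2]
  · rw [Pl.ord_mul _ hc e.1, e.2]
  · rw [Pl.ord_mul _ hc (right_ne_zero_of_mul e)]
    exact add_le_add le_rfl (h.l (right_ne_zero_of_mul e))
  · rw [Pl.ord_mul _ hc (right_ne_zero_of_mul e)]
    exact add_le_add le_rfl (h.r (right_ne_zero_of_mul e))

theorem Mn.rot (h : Mn P p q n) : Mn P q (-p) n :=
  ⟨h.ex.symm.imp_right fun e => ⟨neg_ne_zero.2 e.1, by rw [Pl.ord_neg, e.2]⟩, h.r,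
    fun e => by rw [Pl.ord_neg]; exact h.l (neg_ne_zero.1 e)⟩

theorem Mn.comb (h : Mn P p q n) {α β : K} (hα : α ∈ P.ring) (hβ : β ∈ P.ring)
    (h0 : α * p + β * q ≠ 0) : n ≤ P.ord (α * p + β * q) := by
  have k : ∀ {α p : K}, α ∈ P.ring → (p ≠ 0 → n ≤ P.ord p) → α * p ≠ 0 → n ≤ P.ord (α * p) :=
    fun hα hp e => by
      rw [Pl.ord_mul _ (left_ne_zero_of_mul e) (right_ne_zero_of_mul e)]
      have := Pl.ord_nonneg_of_mem P hα
      have := hp (right_ne_zero_of_mul e)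
      omega
  by_cases h1 : α * p = 0
  · rw [h1, zero_add] at h0 ⊢
    exact k hβ h.r h0
  by_cases h2 : β * q = 0
  · rw [h2, add_zero]
    exact k hα h.l h1
  exact (le_min (k hα h.l h1) (k hβ h.r h2)).trans (Pl.min_ord_le_add P h1 h2 h0)

theorem Mn.zero (h : Mn P p q n) (hp : P.ord p = 0) (hq : P.ord q = 0) : n = 0 :=
  h.ex.elim (fun e => e.2.symm.trans hp) fun e => e.2.symm.trans hq

/-- Coordinates with their dual derivations. -/
structure Co (s t : K) (e₁ e₂ : Derivation ℂ K K) : Prop where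
  a : e₁ s = 1
  b : e₁ t = 0
  c : e₂ s = 0
  d : e₂ t = 1
  exp : ∀ (δ : Derivation ℂ K K) (a : K), δ a = δ s * e₁ a + δ t * e₂ a

/-- Coordinates that are regular at `P`. -/
structure Fr (P : Place K) (s t : K) (e₁ e₂ : Derivation ℂ K K) : Prop extends Co s t e₁ e₂ where
  ms : s ∈ P.ring
  mt : t ∈ P.ring
  r₁ : RegDer P e₁
  r₂ : RegDer P e₂

variable {s t a u : K} {e₁ e₂ X : Derivation ℂ K K}

theorem Co.ne_X (h : Co s t e₁ e₂) (hX : X ≠ 0) : X s ≠ 0 ∨ X t ≠ 0 := by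
  by_contra e
  push Not at e
  exact hX (Derivation.ext fun a => by simp [h.exp X a, e.1, e.2])

theorem Co.ne_u (h : Co s t e₁ e₂) (hu : ∀ c : ℂ, u ≠ algebraMap ℂ K c) : e₁ u ≠ 0 ∨ e₂ u ≠ 0 := by
  obtain ⟨δ, hδ⟩ := P297Y.Alb.exists_der_one (k := ℂ) (z := u) fun halg => by
    obtain ⟨c, hc⟩ := minpoly.mem_range_of_degree_eq_one ℂ u
      (IsAlgClosed.degree_eq_one_of_irreducible ℂ (minpoly.irreducible halg.isIntegral))
    exact hu c hc.symm
  by_contra e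
  push Not at e
  simp [h.exp δ u, e.1, e.2] at hδ

theorem Co.wedge (h : Co s t e₁ e₂) (x y : K) (δ₁ δ₂ : Derivation ℂ K K) :
    wedge x y δ₁ δ₂ = wedge x y e₁ e₂ * wedge s t δ₁ δ₂ := by
  simp only [Sf.wedge]
  rw [h.exp δ₁ x, h.exp δ₁ y, h.exp δ₂ x, h.exp δ₂ y]
  ring

theorem Fr.vset (h : Fr P s t e₁ e₂) (hn : Mn P (X s) (X t) n) : IsLeast (Surf.vset X P) n := by
  refine ⟨hn.ex.elim (fun e => ⟨s, h.ms, e⟩) fun e => ⟨t, h.mt, e⟩, ?_⟩
  rintro _ ⟨b, hb, h0, rfl⟩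
  rw [h.exp X b, mul_comm (X s), mul_comm (X t)] at h0 ⊢
  exact hn.comb (h.r₁ b hb) (h.r₂ b hb) h0

theorem Fr.fset (h : Fr P s t e₁ e₂) (hn : Mn P (a * e₁ u) (a * e₂ u) n) :
    IsLeast (Surf.fset a u P) n := by
  refine ⟨hn.ex.elim (fun e => ⟨e₁, h.r₁, e⟩) fun e => ⟨e₂, h.r₂, e⟩, ?_⟩
  rintro _ ⟨δ, hδ, h0, rfl⟩
  rw [h.exp δ u, mul_add, mul_left_comm a, mul_left_comm a] at h0 ⊢
  exact hn.comb (hδ s h.ms) (hδ t h.mt) h0

theorem Fr.can (h : Fr P s t e₁ e₂) {x y : K} (hn : IsLeast (canSet x y P) n) :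
    wedge x y e₁ e₂ ≠ 0 ∧ P.ord (wedge x y e₁ e₂) = n := by
  obtain ⟨δ₁, δ₂, h1, h2, h3, h4⟩ := hn.1
  rw [h.wedge] at h3 h4
  have h5 := hn.2 ⟨e₁, e₂, h.r₁, h.r₂, left_ne_zero_of_mul h3, rfl⟩
  have h6 : 0 ≤ P.ord (wedge s t δ₁ δ₂) := Pl.ord_nonneg_of_mem P
    (sub_mem (mul_mem (h1 s h.ms) (h2 t h.mt)) (mul_mem (h1 t h.mt) (h2 s h.ms)))
  rw [Pl.ord_mul _ (left_ne_zero_of_mul h3) (right_ne_zero_of_mul h3)] at h4
  exact ⟨left_ne_zero_of_mul h3, by omega⟩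

variable (S : Surf K)

theorem exists_fr (C : Crv S.W) : ∃ s t e₁ e₂, Fr C.pl s t e₁ e₂ := by
  obtain ⟨i, hi⟩ := S.all.crv_cover C
  obtain ⟨x, x1, x2⟩ := (S.all.inf_pt C _ (S.x_mem i) hi).nonempty
  obtain ⟨-, -, -, -, s, t, -, -, hm⟩ := S.all.gens x _ (S.x_mem i) x2
  obtain ⟨e₁, e₂, -, h1, h2, h3, h4, h5, h6⟩ := par K S S.all x s t hm
  exact ⟨s, t, e₁, e₂, ⟨h2, h3, h4, h5, h6⟩, x1 _ s.2, x1 _ t.2, (h1 C x1).1, (h1 C x1).2⟩

open SB in
theorem exists_co : ∃ e₁ e₂, Co (S.x 1 / S.x 0) (S.x 2 / S.x 0) e₁ e₂ ∧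
    {C : Crv S.W | ¬ Fr C.pl (S.x 1 / S.x 0) (S.x 2 / S.x 0) e₁ e₂}.Finite := by
  have hL := S.all.toLoc
  obtain ⟨d, hd⟩ := P297Z.Diff.exists_coord (yc_trb hL 0)
  obtain ⟨G, hGA, hG⟩ := exists_gens hL 0
  have co : Co (S.x 1 / S.x 0) (S.x 2 / S.x 0) (d 0) (d 1) :=
    ⟨hd.dual 0 0, hd.dual 0 1, hd.dual 1 0, hd.dual 1 1, fun δ a =>
      (hd.expand δ a).trans (Fin.sum_univ_two _)⟩
  refine ⟨d 0, d 1, co, ((finite_not_in S.model (S.x_mem 0) (S.x_ne 0)).union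
    (G.finite_toSet.biUnion fun g _ => Set.finite_iUnion fun j =>
      finite_ord S.model (d j g))).subset fun C hC => ?_⟩
  by_contra hcon
  simp only [Set.mem_union, Set.mem_ofPred_eq, Set.mem_iUnion, Function.mem_support, not_or,
    not_not, not_exists] at hcon
  have h1 : ∀ j, RegDer C.pl (d j) := fun j => (regDer_iff _ _).2 <|
    pres_of_gens (cen hL hcon.1) hGA hG
      (fun r hr => In.le hcon.1 (Rp_le S 0 (der_mem_Rp hd j r hr))) fun g hg => by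
      by_cases h0 : d j g = 0
      · simp [h0]
      · exact ((val_eq_one_iff C h0).2 (hcon.2 g hg j)).le
  exact hC ⟨co, hcon.1.2 _ (S.x_mem 1), hcon.1.2 _ (S.x_mem 2), h1 0, h1 1⟩

theorem vd_least (hX : X ≠ 0) (C : Crv S.W) : IsLeast (Surf.vset X C.pl) (-S.vd X C) := by
  have fin : (Function.support fun C : Crv S.W => -sInf (Surf.vset X C.pl)).Finite := by
    obtain ⟨e₁, e₂, co, h⟩ := exists_co S
    refine (h.union ((S.all.fin_div (X (S.x 1 / S.x 0))).union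
      (S.all.fin_div (X (S.x 2 / S.x 0))))).subset fun C hC => ?_
    by_contra hcon
    simp only [Set.mem_union, Set.mem_ofPred_eq, Function.mem_support, not_or, not_not] at hcon
    obtain ⟨n, hn⟩ := exists_mn C.pl (co.ne_X hX)
    exact hC (by simp only [(hcon.1.vset hn).csInf_eq, hn.zero hcon.2.1 hcon.2.2, neg_zero])
  obtain ⟨s, t, e₁, e₂, h⟩ := exists_fr S C
  obtain ⟨n, hn⟩ := exists_mn C.pl (h.ne_X hX)
  rw [Surf.vd, toDiv_apply fin, neg_neg, (h.vset hn).csInf_eq]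
  exact h.vset hn

theorem fd_least (ha : a ≠ 0) (hu : ∀ c : ℂ, u ≠ algebraMap ℂ K c) (C : Crv S.W) :
    IsLeast (Surf.fset a u C.pl) (S.fd a u C) := by
  have fin : (Function.support fun C : Crv S.W => sInf (Surf.fset a u C.pl)).Finite := by
    obtain ⟨e₁, e₂, co, h⟩ := exists_co S
    refine (h.union ((S.all.fin_div (a * e₁ u)).union (S.all.fin_div (a * e₂ u)))).subset
      fun C hC => ?_
    by_contra hcon
    simp only [Set.mem_union, Set.mem_ofPred_eq, Function.mem_support, not_or, not_not] at hcon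
    obtain ⟨n, hn⟩ := exists_mn C.pl ((co.ne_u hu).imp (mul_ne_zero ha) (mul_ne_zero ha))
    exact hC (by simp only [(hcon.1.fset hn).csInf_eq, hn.zero hcon.2.1 hcon.2.2])
  obtain ⟨s, t, e₁, e₂, h⟩ := exists_fr S C
  obtain ⟨n, hn⟩ := exists_mn C.pl ((h.ne_u hu).imp (mul_ne_zero ha) (mul_ne_zero ha))
  rw [Surf.fd, toDiv_apply fin, (h.fset hn).csInf_eq]
  exact h.fset hn

variable {S}

theorem ham_co (hX : S.IsHam a u X) (h : Co s t e₁ e₂) :
    wedge (S.x 1 / S.x 0) (S.x 2 / S.x 0) e₁ e₂ * X s = a * e₂ u ∧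
      wedge (S.x 1 / S.x 0) (S.x 2 / S.x 0) e₁ e₂ * X t = -(a * e₁ u) := by
  rw [mul_comm _ (X s), mul_comm _ (X t), ← hX, ← hX]
  simp [wedge, h.a, h.b, h.c, h.d]

theorem ham_ne (ha : a ≠ 0) (hu : ∀ c : ℂ, u ≠ algebraMap ℂ K c) (hX : S.IsHam a u X) :
    X ≠ 0 ∧ X u = 0 := by
  obtain ⟨e₁, e₂, co, -⟩ := exists_co S
  refine ⟨fun e => ?_, ?_⟩
  · obtain ⟨h1, h2⟩ := ham_co hX co
    rw [e] at h1 h2
    rcases co.ne_u hu with h | h
    · simp [ha, h] at h2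
    · simp [ha, h] at h1
  · have := hX u e₁ e₂
    simpa [wedge, co.a, co.b, co.c, co.d, mul_comm] using this.symm

theorem reg (hX : X ≠ 0) (C : Crv S.W) {t : K} (ht : t ≠ 0) (h : S.vd X C ≤ C.ord t) :
    RegDer C.pl (t • X) := fun b hb => by
  rw [Derivation.smul_apply, smul_eq_mul]
  by_cases h0 : X b = 0
  · rw [h0, mul_zero]
    exact zero_mem _
  have := (vd_least S hX C).2 ⟨b, hb, h0, rfl⟩
  rw [← Pl.ord_nonneg_iff _ (mul_ne_zero ht h0), Pl.ord_mul _ ht h0]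
  unfold Crv.ord at h
  omega

end DerA

open DerA in
theorem der : DER := fun K _ _ S =>
  { ex := fun a u => by
      obtain ⟨e₁, e₂, co, -⟩ := exists_co S
      refine ⟨a • (e₂ u • e₁ - e₁ u • e₂), fun f δ₁ δ₂ => ?_⟩
      rw [co.wedge f u]
      simp only [wedge, Derivation.smul_apply, Derivation.sub_apply, smul_eq_mul]
      ring
    ne := fun _ _ _ => ham_ne
    vd_least := fun _ => vd_least S
    fd_least := fun _ _ => fd_least S
    vd_eq := fun a u X ha hu hX => Finsupp.ext fun C => by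
      obtain ⟨s, t, e₁, e₂, h⟩ := exists_fr S C
      obtain ⟨n, hn⟩ := exists_mn C.pl (h.ne_X (ham_ne ha hu hX).1)
      obtain ⟨m, hm⟩ := exists_mn C.pl ((h.ne_u hu).imp (mul_ne_zero ha) (mul_ne_zero ha))
      obtain ⟨j0, j1⟩ := h.can (S.all.least _ _ S.indep C)
      have h1 := hn.mul j0
      rw [(ham_co hX h.toCo).1, (ham_co hX h.toCo).2, j1] at h1
      have h2 := h1.unique hm.rot
      have h3 := (vd_least S (ham_ne ha hu hX).1 C).unique (h.vset hn)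
      have h4 := (fd_least S ha hu C).unique (h.fset hm)
      rw [Finsupp.sub_apply, h4, Surf.kap]
      omega
    reg := fun _ hX C _ => reg hX C
    reg_pt := fun X hX x t ht b hb => (S.all.normal x _).1 <| by
      by_cases h0 : t * X b = 0
      · exact Or.inl h0
      refine Or.inr fun C hC => ?_
      have h1 := ht.2 C hC
      rw [Finsupp.neg_apply] at h1
      simpa using Pl.ord_nonneg_of_mem _ (reg hX C ht.1 (by omega) b (hC b hb)) }

end Vale.Agent.P297Z.Sf
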