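import Vale.Agent.P297Y.Alg.Sk
import Vale.Agent.P297Y.An.Mor
import Vale.Agent.P297Y.An.Alb2
import Vale.Agent.P297Z.Surf.AllOf

/-! P297, positive irregularity: the pencil defined by a function without points of
indeterminacy. -/

set_option linter.all false

open IsLocalRing

namespace Vale.Agent.P297Z.Sf

open Vale.Agent.P019P (CFF Plk)
open Vale.Agent.P297Y.Alb (kerF cff_ker essFin trans_of_nc exists_coord_with der_alg)

namespace Penof

variable {K : Type} [Field K] [Algebra ℂ K]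

/-- The constants of a coordinate derivation that kills `f`. -/
theorem exists_k {S : Surf K} (hS : S.All) {f : K} (hf : ∀ c : ℂ, f ≠ algebraMap ℂ K c) :
    ∃ k : IntermediateField ℂ K, CFF ℂ k ∧ (∀ z : K, IsAlgebraic k z → z ∈ k) ∧ f ∈ k := by
  haveI := essFin hS
  obtain ⟨d, hd⟩ := _root_.P297Z.Diff.exists_coord (SB.trb S.model.td S.indep)
  obtain ⟨v, e₀, e₁, -, -, h1, h2, h3⟩ := exists_coord_with hd (trans_of_nc hf)
  exact ⟨kerF e₁, cff_ker (trans_of_nc hf) h1 h2 h3,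
    fun z hz => der_alg e₁ (fun e : kerF e₁ => e.2) hz, h1⟩

/-- A nonconstant member of the local ring excludes a valuation trivial on the base field. -/
theorem mem_or {S : Surf K} (hS : S.All) (k : IntermediateField ℂ K) [CFF ℂ k] (x : Pt S.W)
    {g : k} (hg : ∀ c : ℂ, (g : K) ≠ algebraMap ℂ K c) (hx : (g : K) ∈ x.ring) (h : k) :
    (h : K) ∈ x.ring ∨ (h : K)⁻¹ ∈ x.ring := by
  by_contra hc
  rw [not_or] at hc
  obtain ⟨V, -, v2, v3⟩ := Mor.exists_V hS k x hc.1 hc.2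
  obtain ⟨c, h1⟩ := hS.val x _ hx
  have h0 : (g : K) - algebraMap ℂ K c ≠ 0 := sub_ne_zero.2 (hg c)
  have h2 := v2 ⟨_, h1.1⟩ ((x.mem_max _).2 h1)
  have h3 : ((g : K) - algebraMap ℂ K c)⁻¹ ∈ V := v3 (g - algebraMap ℂ k c)⁻¹
  exact (V.mem_nonunits_iff_or.1 (V.mem_nonunits_iff.2 h2)).elim h0 fun h' => h' h3

end Penof

/-- The pencil defined by a function without points of indeterminacy. -/
theorem penof : PENOF := by
  intro K _ _ S f hf hx
  have hS := S.all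
  obtain ⟨k, hk, hc, hfk⟩ := Penof.exists_k hS hf
  have H : ∀ x : Pt S.W, ∃ P : Plk ℂ k, ∀ a : k, a ∈ P.1 ↔ (a : K) ∈ x.ring := fun x => by
    obtain ⟨g, g1, g2⟩ : ∃ g : k, (∀ c : ℂ, (g : K) ≠ algebraMap ℂ K c) ∧ (g : K) ∈ x.ring := by
      rcases hx x with h | h
      · exact ⟨⟨f, hfk⟩, hf, h⟩
      · refine ⟨⟨f⁻¹, inv_mem hfk⟩, fun c e => hf c⁻¹ ?_, h⟩
        rw [map_inv₀, ← e]
        exact (inv_inv f).symm
    let A : ValuationSubring k := ValuationSubring.ofSubring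
      (x.ring.toSubring.comap (algebraMap k K)) (Penof.mem_or hS k x g1 g2)
    have hA : ∀ a : k, a ∈ A ↔ (a : K) ∈ x.ring := fun _ => Iff.rfl
    refine ⟨⟨A, fun c => x.ring.algebraMap_mem c, fun e => ?_⟩, hA⟩
    have h1 : ∀ z : k, (z : K) ∈ x.ring := fun z => (hA z).1 (by rw [e]; trivial)
    obtain ⟨c, -, h2 | h2⟩ := hS.val x _ g2
    · exact g1 c (sub_eq_zero.1 h2)
    · exact h2 (h1 (g - algebraMap ℂ k c)⁻¹)
  choose π hπ using H
  refine ⟨⟨k, hc, π, fun x a => ⟨fun h => (hπ x a).1 ((P019P.mem_iff_ord _ a).2 (Or.inr h)),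
    fun h => ⟨(hπ x a).1 ((P019P.mem_iff_ord _ a).2 (Or.inr h.le)), Or.inr fun h1 => ?_⟩⟩⟩, hfk⟩
  rcases (P019P.mem_iff_ord _ a⁻¹).1 ((hπ x a⁻¹).2 h1) with h2 | h2
  · rw [inv_eq_zero.1 h2, P019P.ord_zero] at h
    exact h.false
  · rw [P019P.ord_inv] at h2
    omega

end Vale.Agent.P297Z.Sf
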