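import Vale.Agent.P297Y.An.Defs
import Vale.Agent.P297Z.Surf.RatRes
import Vale.Agent.P297Z.Surf.RR
import Vale.Agent.P297Z.Diff.Can
import Vale.Agent.P297.H2.HalfAll
import Vale.Agent.P025.R2.H492.Genus

/-! P297, positive irregularity: curves on a surface, pencils, vector fields. Definitions. -/

set_option linter.all false

open IsLocalRing

namespace Vale.Agent.P297Z.Sf

open Vale.Agent.P297 (Place PlaceOver IsFF)
open Vale.Agent.P019P (CFF Plk LL gen dg dv prn)

variable {K : Type} [Field K] [Algebra ℂ K]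

/-! ### Curves on the surface -/

/-- The prime divisor of a curve. -/
noncomputable abbrev Crv.cl {W : Submodule ℂ K} (C : Crv W) : Div W := Finsupp.single C 1

/-- The restriction of a function to a curve (zero if the function has a pole along it). -/
noncomputable def Crv.rs {W : Submodule ℂ K} (C : Crv W) (f : K) : C.Fn :=
  open Classical in if h : f ∈ C.pl.ring then C.resid ⟨f, h⟩ else 0

theorem Crv.rs_of_mem {W : Submodule ℂ K} (C : Crv W) {f : K} (h : f ∈ C.pl.ring) :
    C.rs f = C.resid ⟨f, h⟩ := dif_pos h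

theorem Crv.rs_add {W : Submodule ℂ K} (C : Crv W) {f g : K} (hf : f ∈ C.pl.ring)
    (hg : g ∈ C.pl.ring) : C.rs (f + g) = C.rs f + C.rs g := by
  rw [C.rs_of_mem hf, C.rs_of_mem hg, C.rs_of_mem (add_mem hf hg), ← map_add]; rfl

theorem Crv.rs_sub {W : Submodule ℂ K} (C : Crv W) {f g : K} (hf : f ∈ C.pl.ring)
    (hg : g ∈ C.pl.ring) : C.rs (f - g) = C.rs f - C.rs g := by
  rw [C.rs_of_mem hf, C.rs_of_mem hg, C.rs_of_mem (sub_mem hf hg), ← map_sub]; rfl

theorem Crv.rs_mul {W : Submodule ℂ K} (C : Crv W) {f g : K} (hf : f ∈ C.pl.ring)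
    (hg : g ∈ C.pl.ring) : C.rs (f * g) = C.rs f * C.rs g := by
  rw [C.rs_of_mem hf, C.rs_of_mem hg, C.rs_of_mem (mul_mem hf hg), ← map_mul]; rfl

theorem Crv.rs_const {W : Submodule ℂ K} (C : Crv W) (c : ℂ) :
    C.rs (algebraMap ℂ K c) = algebraMap ℂ C.Fn c := C.rs_of_mem (C.const_mem c)

theorem Crv.rs_zero {W : Submodule ℂ K} (C : Crv W) : C.rs 0 = 0 := by
  simpa using C.rs_const 0

theorem Crv.rs_one {W : Submodule ℂ K} (C : Crv W) : C.rs 1 = 1 := by
  simpa using C.rs_const 1

theorem Crv.rs_smul {W : Submodule ℂ K} (C : Crv W) (c : ℂ) {f : K} (hf : f ∈ C.pl.ring) :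
    C.rs (c • f) = c • C.rs f := by
  rw [Algebra.smul_def, Algebra.smul_def, C.rs_mul (C.const_mem c) hf, C.rs_const]

theorem Crv.rs_eq_zero {W : Submodule ℂ K} (C : Crv W) {f : K} (hf : f ∈ C.pl.ring) :
    C.rs f = 0 ↔ f = 0 ∨ 0 < C.ord f := by
  rw [C.rs_of_mem hf, C.resid_eq_zero]

theorem Crv.rs_surj {W : Submodule ℂ K} (C : Crv W) (e : C.Fn) :
    ∃ f ∈ C.pl.ring, C.rs f = e := by
  obtain ⟨f, rfl⟩ := C.resid_surj e
  exact ⟨f, f.2, C.rs_of_mem f.2⟩

/-- The stalk of `O(D)` at the generic point of the curve `C`. -/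
def secAt {W : Submodule ℂ K} (C : Crv W) (D : Div W) : Submodule ℂ K :=
  secOn (fun C' => C' = C) D

theorem mem_secAt {W : Submodule ℂ K} {C : Crv W} {D : Div W} {f : K} :
    f ∈ secAt C D ↔ f = 0 ∨ 0 ≤ C.ord f + D C :=
  or_congr_right ⟨fun h => h C rfl, fun h _ e => e ▸ h⟩

/-- A finitely supported function with given values (zero if the support is infinite). -/
noncomputable def toFs {α : Type} (g : α → ℤ) : α →₀ ℤ :=
  open Classical in
  if h : (Function.support g).Finite then Finsupp.ofSupportFinite g h else 0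

theorem toFs_apply {α : Type} {g : α → ℤ} (h : (Function.support g).Finite) (a : α) :
    toFs g a = g a := by
  rw [toFs, dif_pos h]; rfl

namespace Surf

variable (S : Surf K)

instance fnFF (C : Crv S.W) : IsFF ℂ C.Fn := Surf.isFF S.all.toLoc1 C

instance fnCFF (C : Crv S.W) : CFF ℂ C.Fn := P297.H2.cff C.Fn

/-- The point of the surface under a place of the function field of a curve. -/
noncomputable def pt (C : Crv S.W) (w : Plk ℂ C.Fn) : Pt S.W :=
  Surf.ctr S.all.toLoc1 C (Function.surjInv P297.H2.toPlk_bij.2 w)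

/-- A local equation of the divisor `D` at `x`. -/
noncomputable def eqn (x : Pt S.W) (D : Div S.W) : K := (S.all.gen x (-D)).choose

theorem eqn_spec (x : Pt S.W) (D : Div S.W) : GenAt x (-D) (S.eqn x D) :=
  (S.all.gen x (-D)).choose_spec

/-- The restriction to the normalisation of `C` of a divisor `D` with `D C = 0`. -/
noncomputable def rst (C : Crv S.W) (D : Div S.W) : Plk ℂ C.Fn →₀ ℤ :=
  toFs fun w => P019P.ord w (C.rs (S.eqn (S.pt C w) D))

/-- The map on the divisors of the normalisation of `C` given by a map on the points. -/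
noncomputable def cyc {Q : Type} [AddCommGroup Q] (c : Pt S.W → Q) (C : Crv S.W) :
    (Plk ℂ C.Fn →₀ ℤ) →+ Q :=
  Finsupp.liftAddHom fun w => zmultiplesHom Q (c (S.pt C w))

theorem cyc_single {Q : Type} [AddCommGroup Q] (c : Pt S.W → Q) (C : Crv S.W) (w : Plk ℂ C.Fn)
    (n : ℤ) : S.cyc c C (Finsupp.single w n) = n • c (S.pt C w) := by
  simp [cyc]

/-- The map `c` kills the principal divisors of the normalisations of the curves. -/
def Kill {Q : Type} [AddCommGroup Q] (c : Pt S.W → Q) : Prop :=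
  ∀ (C : Crv S.W), ∀ D ∈ prn ℂ C.Fn, S.cyc c C D = 0

/-- Twice the arithmetic genus minus two. -/
noncomputable def ag (D : Div S.W) : ℤ := inter D D + inter S.kap D

/-- The curve `C` is smooth. -/
def Smooth (C : Crv S.W) : Prop :=
  ∀ x : Pt S.W, x.On C → ∃ t : x.ring, 0 < C.ord t ∧ t ∉ maximalIdeal x.ring ^ 2

/-! ### The first cohomology -/

/-- The cocycles. -/
def Z1 (D : Div S.W) : Submodule ℂ (Fin 3 → K) where
  carrier := {f | ∀ i j, f i - f j ∈ secOn (fun C => C.In (S.x i) ∧ C.In (S.x j)) D}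
  zero_mem' := fun i j => by simp
  add_mem' := fun {f g} hf hg i j => by
    have h := add_mem (hf i j) (hg i j)
    rwa [show f i - f j + (g i - g j) = (f + g) i - (f + g) j by simp; ring] at h
  smul_mem' := fun c f hf i j => by
    have h := Submodule.smul_mem _ c (hf i j)
    rwa [smul_sub] at h

/-- The coboundaries. -/
def B1 (D : Div S.W) : Submodule ℂ (Fin 3 → K) where
  carrier := {f | ∃ g, ∀ i, f i - g ∈ secIn (S.x i) D}
  zero_mem' := ⟨0, fun i => by simp⟩
  add_mem' := by
    rintro f f' ⟨g, hg⟩ ⟨g', hg'⟩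
    refine ⟨g + g', fun i => ?_⟩
    have h := add_mem (hg i) (hg' i)
    rwa [show f i - g + (f' i - g') = (f + f') i - (g + g') by simp; ring] at h
  smul_mem' := by
    rintro c f ⟨g, hg⟩
    refine ⟨c • g, fun i => ?_⟩
    have h := Submodule.smul_mem _ c (hg i)
    rwa [smul_sub] at h

/-- The dimension of the first cohomology. -/
noncomputable def h1 (D : Div S.W) : ℤ := h0 D + h0 (S.kap - D) - chi D

/-- The principal parts `h` are locally those of a function. -/
def LocSol (D : Div S.W) (h : Crv S.W → K) : Prop :=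
  (Function.support h).Finite ∧ ∀ x : Pt S.W, ∃ g, ∀ C, x.On C → g - h C ∈ secAt C D

/-- The principal parts of the functions. -/
def Glob (D : Div S.W) : Submodule ℂ (Crv S.W → K) where
  carrier := {h | ∃ g, ∀ C, g - h C ∈ secAt C D}
  zero_mem' := ⟨0, fun C => by simp⟩
  add_mem' := by
    rintro f f' ⟨g, hg⟩ ⟨g', hg'⟩
    refine ⟨g + g', fun C => ?_⟩
    have h := add_mem (hg C) (hg' C)
    rwa [show g - f C + (g' - f' C) = g + g' - (f + f') C by simp; ring] at h
  smul_mem' := by
    rintro c f ⟨g, hg⟩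
    refine ⟨c • g, fun C => ?_⟩
    have h := Submodule.smul_mem _ c (hg C)
    rwa [smul_sub] at h

/-! ### Vector fields -/

/-- The orders of the values of `X` on the valuation ring of `P`. -/
def vset (X : Derivation ℂ K K) (P : Place K) : Set ℤ :=
  {n | ∃ b ∈ P.ring, X b ≠ 0 ∧ P.ord (X b) = n}

/-- The divisor of the poles minus the divisor of the zeros of the vector field `X`. -/
noncomputable def vd (X : Derivation ℂ K K) : Div S.W := toDiv fun C => - sInf (vset X C.pl)

/-- The orders of the values of the form `a du` on vector fields that are regular at `P`. -/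
def fset (a u : K) (P : Place K) : Set ℤ :=
  {n | ∃ δ : Derivation ℂ K K, RegDer P δ ∧ a * δ u ≠ 0 ∧ P.ord (a * δ u) = n}

/-- The divisor of the form `a du`. -/
noncomputable def fd (a u : K) : Div S.W := toDiv fun C => sInf (fset a u C.pl)

/-- `X f` is the quotient of the form `df ∧ (a du)` by the form with divisor `kap`. -/
def IsHam (a u : K) (X : Derivation ℂ K K) : Prop :=
  ∀ (f : K) (δ₁ δ₂ : Derivation ℂ K K),
    a * wedge f u δ₁ δ₂ = X f * wedge (S.x 1 / S.x 0) (S.x 2 / S.x 0) δ₁ δ₂

/-! ### Intersection numbers -/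

/-- The intersection form. -/
noncomputable def B : Div S.W →+ Div S.W →+ ℤ := interHom S.all.toRR

theorem B_apply (A A' : Div S.W) : S.B A A' = inter A A' := rfl

/-- Nef divisors. -/
def Nef (A : Div S.W) : Prop := ∀ C : Crv S.W, 0 ≤ inter A C.cl

end Surf

/-! ### Pencils without base points -/

/-- A morphism with connected fibres to the curve with function field `k`. -/
structure Pen (S : Surf K) where
  /-- the function field of the base curve -/
  k : IntermediateField ℂ K
  [cff : CFF ℂ k]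
  closed : ∀ z : K, IsAlgebraic k z → z ∈ k
  /-- the map on points -/
  π : Pt S.W → Plk ℂ k
  isPi : IsPi k π

attribute [instance] Pen.cff

namespace Pen

variable {S : Surf K} (P : Pen S)

/-- Horizontal curves. -/
def Hor (C : Crv S.W) : Prop := ∀ f : P.k, (f : K) ∈ C.pl.ring

/-- The curve `C` lies in the fibre over `p`. -/
def Over (C : Crv S.W) (p : Plk ℂ P.k) : Prop := ∀ f : P.k, f ∈ p.1 ↔ (f : K) ∈ C.pl.ring

/-- A uniformiser. -/
noncomputable def unif (p : Plk ℂ P.k) : P.k := (P019P.exists_unif p).choose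

/-- The fibre over `p`. -/
noncomputable def fib (p : Plk ℂ P.k) : Div S.W :=
  open Classical in toDiv fun C => if P.Over C p then C.ord (P.unif p) else 0

/-- The pull back of divisors. -/
noncomputable def pull : (Plk ℂ P.k →₀ ℤ) →+ Div S.W :=
  Finsupp.liftAddHom fun p => zmultiplesHom _ (P.fib p)

theorem pull_single (p : Plk ℂ P.k) (n : ℤ) : P.pull (Finsupp.single p n) = n • P.fib p := by
  simp [pull]

/-- A fixed fibre. -/
noncomputable def F : Div S.W := P.fib (P019P.nonempty_Plk ℂ P.k).some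

/-- The sections of `O(D)` on the generic fibre. -/
def sec (D : Div S.W) : Submodule P.k K where
  carrier := secOn P.Hor D
  zero_mem' := (secOn P.Hor D).zero_mem
  add_mem' := fun h h' => (secOn P.Hor D).add_mem h h'
  smul_mem' := by
    intro c f hf
    have h1 : (c : K) ∈ secOn P.Hor (0 : Div S.W) := by
      by_cases h0 : (c : K) = 0
      · exact Or.inl h0
      · exact Or.inr fun C hC => by simpa using Pl.ord_nonneg_of_mem C.pl (hC c)
    have h2 := mul_mem_secOn h1 hf
    rw [zero_add] at h2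
    exact h2

/-- The dimension of the space of sections on the generic fibre. -/
noncomputable def rk (D : Div S.W) : ℕ := Module.finrank P.k (P.sec D)

/-- The function field of a horizontal curve as an extension of `k`. -/
noncomputable def toFn {C : Crv S.W} (h : P.Hor C) : P.k →ₐ[ℂ] C.Fn :=
  (C.rho (A := P.k.toSubalgebra) fun f hf => h ⟨f, hf⟩)

noncomputable instance alg (C : Crv S.W) [h : Fact (P.Hor C)] : Algebra P.k C.Fn :=
  (P.toFn h.out).toRingHom.toAlgebra

theorem algebraMap_fn (C : Crv S.W) [h : Fact (P.Hor C)] (f : P.k) :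
    algebraMap P.k C.Fn f = C.rs f := (C.rs_of_mem (h.out f)).symm

instance tower (C : Crv S.W) [h : Fact (P.Hor C)] : IsScalarTower ℂ P.k C.Fn :=
  IsScalarTower.of_algebraMap_eq fun c => ((P.toFn h.out).commutes c).symm

instance findim (C : Crv S.W) [Fact (P.Hor C)] : FiniteDimensional P.k C.Fn := by
  obtain ⟨x, hx, -⟩ := P.cff.ex
  exact P025H492.finite_of_transcendental (k := ℂ) hx

/-- `X` is the vector field of the nonzero form `a du` of the base curve. -/
structure Ham (a u : P.k) (X : Derivation ℂ K K) : Prop where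
  a_ne : a ≠ 0
  u_nc : ∀ c : ℂ, u ≠ algebraMap ℂ P.k c
  ham : S.IsHam a u X

/-- The fibre over `p` is the smooth curve `C`. -/
structure Good (p : Plk ℂ P.k) (C : Crv S.W) : Prop where
  ov : P.Over C p
  fib_eq : P.fib p = C.cl
  smooth : S.Smooth C

/-- On almost all fibres, almost all points are equivalent up to torsion. -/
def Tors : Prop := ∀ (Q : Type) [AddCommGroup Q] (c : Pt S.W → Q), S.Kill c →
  ∃ T : Finset (Plk ℂ P.k), ∀ p, p ∉ T → ∀ C, P.Good p C → ∃ N : ℕ, N ≠ 0 ∧
    ∃ T' : Finset (Plk ℂ C.Fn), ∀ w, w ∉ T' → ∀ w', w' ∉ T' →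
      N • (c (S.pt C w) - c (S.pt C w')) = 0

/-- The zero-cycles are those of the base curve. -/
def Star : Prop := ∀ (Q : Type) [AddCommGroup Q] (c : Pt S.W → Q), S.Kill c →
  ∀ z : Pt S.W →₀ ℤ, Finsupp.mapDomain P.π z ∈ prn ℂ P.k → z.sum (fun x n => n • c x) = 0

end Pen

/-- The pencil of a fibration. -/
def Fib.pen {S : Surf K} (φ : Fib S) (π : Pt S.W → Plk ℂ φ.k) (h : IsPi φ.k π) : Pen S where
  k := φ.k
  closed := φ.closed
  π := π
  isPi := h

/-- A pencil with a regular form `a du` pulled back from the base, and its vector field. -/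
structure Fm (S : Surf K) extends Fib S where
  /-- the map on points -/
  π : Pt S.W → Plk ℂ k
  isPi : IsPi k π
  /-- the vector field -/
  X : Derivation ℂ K K
  ham : S.IsHam a u X

/-- The pencil. -/
def Fm.pen {S : Surf K} (φ : Fm S) : Pen S := φ.toFib.pen φ.π φ.isPi

theorem Fm.pen_ham {S : Surf K} (φ : Fm S) : φ.pen.Ham φ.a φ.u φ.X := ⟨φ.a_ne, φ.u_nc, φ.ham⟩

/-- The divisor of the form. -/
noncomputable def Fib.M {S : Surf K} (φ : Fib S) : Div S.W := S.fd φ.a φ.u

/-- The target of the algebraic part. -/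
def STARK : Prop := ForAll fun S => H0 S.kap = ⊥ → ∀ (φ : Fib S) (π : Pt S.W → Plk ℂ φ.k)
  (h : IsPi φ.k π), (φ.pen π h).Star

/-- The target of the algebraic part, for maps that kill the principal cycles. -/
def STAR : Prop := ForAll fun S => H0 S.kap = ⊥ → ∀ (φ : Fib S) (π : Pt S.W → Plk ℂ φ.k),
  IsPi φ.k π → ∀ (Q : Type) [AddCommGroup Q] (c : Pt S.W → Q), RatOK c →
    ∀ z : Pt S.W →₀ ℤ, Finsupp.mapDomain π z ∈ prn ℂ φ.k → z.sum (fun x n => n • c x) = 0

end Vale.Agent.P297Z.Sf
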