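import Vale.Agent.P297Y.Alg.Sk
import Vale.Agent.P297Y.Ctr.Hodge

/-! P297, positive irregularity: the genus of the base, connectedness, the lemma of Zariski, and
the general fibre. -/

set_option linter.all false

open IsLocalRing

namespace Vale.Agent.P297Z.Sf

open Vale.Agent.P019P (CFF Plk LL Mge gen can dg)

namespace Cz

section curve

variable {k : Type} [Field k] [Algebra ℂ k] [CFF ℂ k] {p : Plk ℂ k} {u : k}

/-- The principal parts with a constant term. -/
noncomputable def pp (u : k) (n : ℕ) : (Fin (n + 1) → ℂ) →ₗ[ℂ] k :=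
  Fintype.linearCombination ℂ fun j => u ^ (-(j : ℤ))

theorem ord_term (h1 : P019P.ord p u = 1) (h0 : u ≠ 0) {c : ℂ} (hc : c ≠ 0) (j : ℤ) :
    c • u ^ j ≠ 0 ∧ P019P.ord p (c • u ^ j) = j := by
  have h2 := zpow_ne_zero j h0
  refine ⟨smul_ne_zero hc h2, ?_⟩
  rw [Algebra.smul_def, P019P.ord_mul _ (by simpa using hc) h2, P019P.ord_const, P019P.ord_zpow, h1]
  ring

theorem pp_mem (h1 : P019P.ord p u = 1) (n : ℕ) (l : Fin (n + 1) → ℂ) :
    pp u n l ∈ Mge p (-n) := by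
  rw [pp, Fintype.linearCombination_apply]
  refine Submodule.sum_mem _ fun j _ => Submodule.smul_mem _ _ (Or.inr ?_)
  rw [P019P.ord_zpow, h1]
  have := j.2
  omega

theorem pp_inj (h1 : P019P.ord p u = 1) (h0 : u ≠ 0) {n : ℕ} {l : Fin (n + 1) → ℂ}
    (h : pp u n l ∈ Mge p 1) : l = 0 := by
  by_contra hc
  obtain ⟨j₀, hj₀⟩ := Function.ne_iff.1 hc
  obtain ⟨i, hi, hm⟩ := (Finset.univ.filter fun j => l j ≠ 0).exists_max_image id
    ⟨j₀, by simpa using hj₀⟩
  obtain ⟨a1, a2⟩ := ord_term h1 h0 (Finset.mem_filter.1 hi).2 (-(i : ℤ))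
  obtain ⟨b1, b2⟩ := P019P.ord_sum_of_lt (P := p) (f := fun j => l j • u ^ (-(j : ℤ)))
    (Finset.mem_univ i) a1 fun j _ hj => by
      by_cases e : l j = 0
      · exact Or.inl (by simp [e])
      · refine Or.inr ?_
        have h2 : j < i := lt_of_le_of_ne (hm j (by simpa using e)) hj
        rw [a2, (ord_term h1 h0 e _).2]
        omega
  rw [pp, Fintype.linearCombination_apply] at h
  have h3 := h.resolve_left b1
  rw [b2, a2] at h3
  omega

theorem const_mem (q : Plk ℂ k) (c : ℂ) : algebraMap ℂ k c ∈ Mge q 0 :=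
  Or.inr (P019P.ord_const q c).ge

theorem sub_const {z : k} (hz : z ∈ Mge p 0) : ∃ c : ℂ, z - algebraMap ℂ k c ∈ Mge p 1 := by
  obtain ⟨c, h⟩ := P019P.exists_cst p ((P019P.mem_iff_ord p z).2 hz)
  exact ⟨c, h.imp sub_eq_zero.2 fun h => h⟩

end curve

variable {K : Type} [Field K] [Algebra ℂ K] {S : Surf K} {P : Pen S}

theorem unif_ne (p : Plk ℂ P.k) : P.unif p ≠ 0 := (P019P.exists_unif p).choose_spec.1

theorem ord_unif (p : Plk ℂ P.k) : P019P.ord p (P.unif p) = 1 :=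
  (P019P.exists_unif p).choose_spec.2

theorem mem_iff (hb : P.Bas) {C : Crv S.W} {q : Plk ℂ P.k} (h : P.Over C q) (g : P.k) :
    (g : K) ∈ secAt C 0 ↔ g ∈ Mge q 0 := by
  rw [mem_secAt, P019P.mem_Mge, hb.ord_over C q h, Finsupp.zero_apply, add_zero,
    mul_nonneg_iff_of_pos_left (hb.fib_pos C q h), ZeroMemClass.coe_eq_zero]

open Classical in
/-- The principal parts along a union of connected components of a fibre. -/
theorem key (hp : PPLE) (hb : P.Bas) (p : Plk ℂ P.k) (A : Set (Crv S.W))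
    (hA : ∀ (x : Pt S.W) C C', C ∈ A → C' ∉ A → P.Over C p → P.Over C' p → x.On C → ¬ x.On C')
    (hex : ∃ C, C ∈ A ∧ P.Over C p) (n : ℕ) (D : Plk ℂ P.k →₀ ℤ)
    (hD : ∀ g ∈ Mge p (-n), (∀ C q, P.Over C q → ¬ (C ∈ A ∧ q = p) → g ∈ Mge q 0) → g ∈ LL ℂ D) :
    (n : ℤ) + 1 ≤ Module.finrank ℂ (LL ℂ D) + S.h1 0 := by
  let φ : (Fin (n + 1) → ℂ) →ₗ[ℂ] (Crv S.W → K) := LinearMap.pi fun C =>
    if C ∈ A ∧ P.Over C p then P.k.val.toLinearMap ∘ₗ pp (P.unif p) n else 0
  have e1 : ∀ l C, C ∈ A ∧ P.Over C p → φ l C = pp (P.unif p) n l := fun l C h => by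
    simp only [φ, LinearMap.pi_apply, if_pos h]
    rfl
  have e0 : ∀ l C, ¬ (C ∈ A ∧ P.Over C p) → φ l C = 0 := fun l C h => by
    simp only [φ, LinearMap.pi_apply, if_neg h, LinearMap.zero_apply]
  have h1 := hp K S 0 _ φ fun l => ⟨(P.fib p).support.finite_toSet.subset fun C hC => by
      by_contra hc
      refine hC (e0 l C fun h => hc ?_)
      exact Finsupp.mem_support_iff.2 (hb.fib_pos C p h.2).ne', fun x => by
    by_cases hx : ∃ C, x.On C ∧ C ∈ A ∧ P.Over C p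
    · obtain ⟨C, a1, a2, a3⟩ := hx
      refine ⟨pp (P.unif p) n l, fun C' hC' => ?_⟩
      by_cases h : C' ∈ A ∧ P.Over C' p
      · rw [e1 l C' h, sub_self]
        exact zero_mem _
      · rw [e0 l C' h, sub_zero]
        rcases hb.dich C' with h' | ⟨q, h'⟩
        · exact mem_secAt.2 (Or.inr (by simp [hb.ord_hor C' h']))
        · obtain rfl : q = p := (hb.pi_eq C' q x h' hC').symm.trans (hb.pi_eq C p x a3 a1)
          exact absurd hC' (hA x C C' a2 (fun e => h ⟨e, h'⟩) a3 h' a1)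
    · refine ⟨0, fun C' hC' => ?_⟩
      rw [e0 l C' fun h => hx ⟨C', hC', h⟩, sub_self]
      exact zero_mem _⟩
  obtain ⟨r, hr⟩ := ((Mge p 1).mkQ ∘ₗ pp (P.unif p) n).exists_leftInverse_of_injective
    (LinearMap.ker_eq_bot'.2 fun l h => pp_inj (ord_unif p) (unif_ne p)
      ((Submodule.Quotient.mk_eq_zero _).1 h))
  have h2 : (S.Glob 0).comap φ ≤ (LL ℂ D).map (r ∘ₗ (Mge p 1).mkQ) := by
    rintro l ⟨g, hg⟩
    obtain ⟨g, rfl⟩ : ∃ g' : P.k, (g' : K) = g := ⟨⟨g, hb.vert g fun C hC => by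
      have h := hg C
      rw [e0 l C fun h => hb.not_hor C p h.2 hC, sub_zero, mem_secAt] at h
      by_cases h0 : g = 0
      · exact h0 ▸ zero_mem _
      · exact (Pl.ord_nonneg_iff _ h0).1 (by simpa using h.resolve_left h0)⟩, rfl⟩
    obtain ⟨C₀, hC₀⟩ := hex
    have a1 := hg C₀
    rw [e1 l C₀ hC₀, ← AddSubgroupClass.coe_sub, mem_iff hb hC₀.2] at a1
    obtain ⟨c, hc⟩ := sub_const a1
    refine ⟨g - algebraMap ℂ P.k c, hD _ ?_ fun C q h h' => sub_mem ?_ (const_mem q c), ?_⟩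
    · have a2 := add_mem (P019P.Mge_mono p (show -(n : ℤ) ≤ 1 by omega) hc)
        (pp_mem (ord_unif p) n l)
      rwa [sub_right_comm, sub_add_cancel] at a2
    · have a2 := hg C
      rwa [e0 l C fun e => h' ⟨e.1, hb.uniq C q p h e.2⟩, sub_zero, mem_iff hb h] at a2
    · rw [sub_right_comm] at hc
      exact (congrArg r ((Submodule.Quotient.eq _).2 hc)).trans (LinearMap.congr_fun hr l)
  have h3 := (Submodule.finrank_mono h2).trans (Submodule.finrank_map_le _ _)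
  rw [Module.finrank_fin_fun] at h1
  push_cast at h1
  omega

/-- Curves in distinct fibres are orthogonal. -/
theorem inter_far (hb : P.Bas) {C : Crv S.W} {p : Plk ℂ P.k} (h : P.Over C p) {Z : Div S.W}
    (hZ : ∀ C', P.Hor C' ∨ P.Over C' p → Z C' = 0) : inter Z C.cl = 0 := by
  have hA := S.all
  rw [← interHom_apply hA.toRR, eq_sum_single Z, map_sum, AddMonoidHom.finsetSum_apply]
  refine Finset.sum_eq_zero fun C' hC' => ?_
  have h1 := mt (hZ C') (Finsupp.mem_support_iff.1 hC')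
  rw [not_or] at h1
  obtain ⟨q, hq⟩ := (hb.dich C').resolve_left h1.1
  have h2 : C' ≠ C := fun e => h1.2 (e ▸ h)
  have h3 : ∀ X : Crv S.W, (0 : Div S.W) ≤ X.cl := fun _ => Finsupp.single_nonneg.2 zero_le_one
  have h4 := Rul.single_or (Z := C.cl) (Finsupp.single_eq_of_ne h2)
  rw [map_zsmul, AddMonoidHom.zsmul_apply, interHom_apply, inter_eq hA.inte (h3 _) (h3 _) h4,
    finsum_eq_zero_of_forall_eq_zero, smul_zero]
  intro x
  by_contra hc
  obtain ⟨⟨X, a1, a2⟩, Y, a3, a4⟩ := (hA.multPos x _ _ (h3 _) (h3 _) h4).2.1 (by exact_mod_cast hc)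
  obtain rfl : X = C' := by_contra fun e => a2 (Finsupp.single_eq_of_ne e)
  obtain rfl : Y = C := by_contra fun e => a4 (Finsupp.single_eq_of_ne e)
  exact h1.2 ((hb.pi_eq _ q x hq a1).symm.trans (hb.pi_eq _ p x h a3) ▸ hq)

end Cz

open Cz

theorem gq (hp : PPLE) (hb : PENB) : GQ := by
  intro K _ _ S P
  have hb := hb K S P
  obtain ⟨p⟩ := P019P.nonempty_Plk ℂ P.k
  obtain ⟨n, hn⟩ : ∃ n : ℕ, dg (can ℂ P.k) < n := ⟨(dg (can ℂ P.k)).toNat + 1, by omega⟩
  have h := key hp hb p Set.univ (fun _ _ _ _ h => absurd trivial h)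
    ((hb.ex_crv p).imp fun _ h => ⟨trivial, h⟩) n (Finsupp.single p n) fun g h1 h2 => by
      refine P019P.mem_LL_iff.2 fun q => ?_
      by_cases e : q = p
      · rwa [e, Finsupp.single_eq_same]
      · obtain ⟨C, hC⟩ := hb.ex_crv q
        rw [Finsupp.single_eq_of_ne e, neg_zero]
        exact h2 C q hC fun h => e h.2
  rw [P019P.RR_large (by rwa [P019P.dg_sgl]), P019P.dg_sgl] at h
  omega

theorem conn (hp : PPLE) (hb : PENB) : CONN := by
  intro K _ _ S P p A h1 ⟨C', a1, a2⟩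
  have hb := hb K S P
  by_contra hc
  have h := key hp hb p A (fun x C C' a b c d e f => hc ⟨x, C, C', a, b, c, d, e, f⟩) h1
    (Module.finrank ℂ (LL ℂ (0 : Plk ℂ P.k →₀ ℤ)) + S.h1 0).toNat 0 fun g _ h2 => by
      refine P019P.mem_LL_iff.2 fun q => ?_
      rw [Finsupp.zero_apply, neg_zero]
      by_cases e : q = p
      · exact h2 C' q (e ▸ a2) fun h => a1 h.1
      · obtain ⟨C, hC⟩ := hb.ex_crv q
        exact h2 C q hC fun h => e h.2
  omega

theorem zar (hb : PENB) (hn : PENN) (hc : CONN) : ZAR := by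
  intro K _ _ S P V hV h0
  classical
  have hb := hb K S P
  have hn := hn K S P
  have hA := S.all
  have h1 : ∀ C, ¬ P.Hor C → inter V C.cl = 0 := fun C hC => by
    have h := Hd.hodge_prop hA hn.F_sq (hn.F_vert' V hV) h0 C.cl
    rw [hn.F_vert C hC, mul_zero] at h
    exact (mul_eq_zero.1 h).resolve_left hn.F_pos.ne'
  refine ⟨h1, fun p C₁ C₂ o1 o2 => ?_⟩
  have hs : ∀ C, P.Over C p → C ∈ (P.fib p).support := fun C h =>
    Finsupp.mem_support_iff.2 (hb.fib_pos C p h).ne'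
  obtain ⟨C₀, m0, hm⟩ := (P.fib p).support.exists_max_image
    (fun C => (V C : ℚ) / P.fib p C) ⟨C₁, hs _ o1⟩
  have o0 : P.Over C₀ p := by_contra fun e => Finsupp.mem_support_iff.1 m0 (hb.fib_zero _ p e)
  have p0 := hb.fib_pos _ p o0
  have h2 : ∀ C, P.Over C p → V C * P.fib p C₀ = V C₀ * P.fib p C := by
    by_contra h
    push Not at h
    obtain ⟨C, a1, a2⟩ := h
    obtain ⟨x, X, Y, b1, b2, b3, b4, b5, b6⟩ := hc K S P p
      {C | V C * P.fib p C₀ = V C₀ * P.fib p C} ⟨C₀, rfl, o0⟩ ⟨C, a2, a1⟩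
    set Z := V C₀ • P.fib p - P.fib p C₀ • V.filter fun C => P.Over C p with hZ
    have c1 : ∀ C, P.Over C p → Z C = V C₀ * P.fib p C - V C * P.fib p C₀ := fun C h => by
      simp only [hZ, Finsupp.sub_apply, Finsupp.smul_apply, smul_eq_mul, Finsupp.filter_apply,
        if_pos h]
      ring
    have c2 : 0 ≤ Z := fun C => by
      by_cases h : P.Over C p
      · have c3 := hm C (hs C h)
        rw [div_le_div_iff₀ (by exact_mod_cast hb.fib_pos _ p h) (by exact_mod_cast p0)] at c3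
        rw [c1 C h, Finsupp.zero_apply, sub_nonneg]
        exact_mod_cast c3
      · simp [hZ, Finsupp.filter_apply, h, hb.fib_zero _ p h]
    have c3 := inter_pos hA.toLoc1 hA.multPos hA.inte c2 (Z' := X.cl)
      (Finsupp.single_nonneg.2 zero_le_one)
      (fun C => (Rul.single_or (by rw [c1 X b3, sub_eq_zero]; exact Eq.symm b1) C).symm)
      ⟨Y, b6, by rw [c1 Y b4, sub_ne_zero]; exact Ne.symm b2⟩ ⟨X, b5, by simp⟩
    have c4 := inter_far hb b3 (Z := V - V.filter fun C => P.Over C p) fun C h => by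
      rw [Finsupp.sub_apply, Finsupp.filter_apply]
      split_ifs with e
      · exact sub_self _
      · rw [hV C (h.resolve_right e), sub_self]
    have c5 := h1 X (hb.not_hor X p b3)
    have c6 := (hn.num_fib p X.cl).trans (hn.F_vert X (hb.not_hor X p b3))
    rw [hZ] at c3
    simp only [← interHom_apply hA.toRR, map_sub, map_zsmul, AddMonoidHom.sub_apply,
      AddMonoidHom.zsmul_apply, smul_eq_mul] at c3 c4 c5 c6
    rw [c5, zero_sub, neg_eq_zero] at c4
    rw [c4, c6] at c3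
    simp at c3
  refine mul_right_cancel₀ p0.ne' ?_
  linear_combination P.fib p C₂ * h2 C₁ o1 - P.fib p C₁ * h2 C₂ o2

theorem genf (hb : PENB) (hc : CONN) (hB : BERT) : GENF := by
  intro K _ _ S P
  have hb := hb K S P
  have hA := S.all
  obtain ⟨T, hT⟩ := hB K S P
  refine ⟨T, fun p hp => ?_⟩
  have h1 : ∀ (x : Pt S.W) (C : Crv S.W), P.Over C p → x.On C →
      (∃ t : x.ring, 0 < C.ord t ∧ t ∉ maximalIdeal x.ring ^ 2) ∧ P.fib p C = 1 ∧
        ∀ C', P.Over C' p → x.On C' → C' = C := fun x C h hx => by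
    have e := hb.pi_eq C p x h hx
    obtain ⟨t, a1, a2⟩ := hT x (e ▸ hp)
    rw [e] at a1
    have a3 : ∀ C', P.Over C' p → C'.ord t = P.fib p C' := fun C' h' => by
      rw [a1, hb.ord_over C' p h', ord_unif, mul_one]
    obtain ⟨w, hw, hxw⟩ := x.exists_in
    obtain ⟨X, -, b2, b3, -⟩ := hA.crv_of_irr x t (hA.ext x w hw hxw t ((x.mem_max t).2 (by
      rw [a1]
      exact (P.isPi x _).2 (by rw [e, ord_unif]; exact one_pos))) a2).1
    have a4 : ∀ C', P.Over C' p → x.On C' → C' = X := fun C' h' hx' => by_contra fun ne =>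
      (hb.fib_pos C' p h').ne' ((a3 C' h').symm.trans (b3 C' hx' ne))
    obtain rfl := a4 C h hx
    exact ⟨⟨t, by omega, a2⟩, (a3 C h).symm.trans b2, a4⟩
  obtain ⟨C, hC⟩ := hb.ex_crv p
  refine ⟨C, hC, Finsupp.ext fun C' => ?_, fun x hx => (h1 x C hC hx).1⟩
  by_cases e : C' = C
  · obtain ⟨x, hx, -⟩ := exists_van_in hA.toLoc C
    rw [e, (h1 x C hC hx).2.1, Finsupp.single_eq_same]
  · rw [Finsupp.single_eq_of_ne e]
    refine hb.fib_zero C' p fun h => ?_
    obtain ⟨x, X, Y, b1, b2, b3, b4, b5, b6⟩ := hc K S P p {C} ⟨C, rfl, hC⟩ ⟨C', e, h⟩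
    exact b2 (((h1 x X b3 b5).2.2 Y b4 b6).trans b1)

end Vale.Agent.P297Z.Sf
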