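import Vale.Agent.P297Y.Alg.Sk

/-! P297, positive irregularity: the points under the places of a curve, and the restriction of
divisors to the normalisation of a curve. -/

set_option linter.all false

open IsLocalRing

namespace Vale.Agent.P297Z.Sf

open Vale.Agent.P019P (CFF Plk LL Mge gen dg dv prn)
open Vale.Agent.P297 (Place PlaceOver IsFF)

variable {K : Type} [Field K] [Algebra ℂ K]

namespace CsH

variable (S : Surf K)

/-- The place in the other language. -/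
noncomputable def pl (C : Crv S.W) (w : Plk ℂ C.Fn) : PlaceOver ℂ C.Fn :=
  Function.surjInv P297.H2.toPlk_bij.2 w

theorem toPlk_pl (C : Crv S.W) (w : Plk ℂ C.Fn) : P297.H2.toPlk (pl S C w) = w :=
  Function.surjInv_eq _ _

theorem pl_toPlk (C : Crv S.W) (w : PlaceOver ℂ C.Fn) : pl S C (P297.H2.toPlk w) = w :=
  P297.H2.toPlk_bij.1 (toPlk_pl S C _)

theorem ring_pl (C : Crv S.W) (w : Plk ℂ C.Fn) : (pl S C w).1.ring = w.1 :=
  congrArg Subtype.val (toPlk_pl S C w)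

theorem ord_pl (C : Crv S.W) (w : Plk ℂ C.Fn) (e : C.Fn) :
    P019P.ord w e = (pl S C w).1.ord e := by
  rw [← P297.H2.ord_toPlk, toPlk_pl]

theorem pt_iff_le (C : Crv S.W) (w : Plk ℂ C.Fn) (x : Pt S.W) :
    S.pt C w = x ↔ x.ring ≤ C.cv (pl S C w) := Surf.ctr_eq_iff S.all.toLoc C (pl S C w) x

theorem pt_iff (C : Crv S.W) (w : Plk ℂ C.Fn) (x : Pt S.W) :
    S.pt C w = x ↔ ∀ f ∈ x.ring, f ∈ C.pl.ring ∧ C.rs f ∈ w.1 := by
  rw [pt_iff_le]
  constructor
  · intro h f hf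
    obtain ⟨h1, h2⟩ := h hf
    exact ⟨h1, by rw [C.rs_of_mem h1, ← ring_pl]; exact h2⟩
  · intro h f hf
    obtain ⟨h1, h2⟩ := h f hf
    exact ⟨h1, by rw [C.rs_of_mem h1, ← ring_pl] at h2; exact h2⟩

theorem pt_on (C : Crv S.W) (w : Plk ℂ C.Fn) : (S.pt C w).On C :=
  fun f hf => ((pt_iff S C w _).1 rfl f hf).1

theorem rs_mem (C : Crv S.W) (w : Plk ℂ C.Fn) {f : K} (hf : f ∈ (S.pt C w).ring) :
    C.rs f ∈ w.1 := ((pt_iff S C w _).1 rfl f hf).2

variable {S} in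
theorem mem_of_ord {C : Crv S.W} {f : K} (h0 : f ≠ 0) (h : C.ord f = 0) : f ∈ C.pl.ring :=
  (Pl.ord_nonneg_iff _ h0).1 h.ge

variable {S} in
theorem rs_ne {C : Crv S.W} {f : K} (h0 : f ≠ 0) (h : C.ord f = 0) : C.rs f ≠ 0 := by
  rw [Ne, C.rs_eq_zero (mem_of_ord h0 h), h]
  rintro (h1 | h1)
  · exact h0 h1
  · exact lt_irrefl _ h1

variable {S} in
theorem ord_rs_mul {C : Crv S.W} (w : Plk ℂ C.Fn) {f g : K} (hf : f ≠ 0) (hg : g ≠ 0)
    (h1 : C.ord f = 0) (h2 : C.ord g = 0) :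
    P019P.ord w (C.rs (f * g)) = P019P.ord w (C.rs f) + P019P.ord w (C.rs g) := by
  rw [C.rs_mul (mem_of_ord hf h1) (mem_of_ord hg h2),
    P019P.ord_mul w (rs_ne hf h1) (rs_ne hg h2)]

/-- A unit of the local ring restricts to a unit at the place. -/
theorem ord_unit (C : Crv S.W) (w : Plk ℂ C.Fn) {f : K} (h0 : f ≠ 0) (h1 : f ∈ (S.pt C w).ring)
    (h2 : f⁻¹ ∈ (S.pt C w).ring) : C.ord f = 0 ∧ P019P.ord w (C.rs f) = 0 := by
  have a1 : C.ord f = 0 := Pl.ord_unit _ (pt_on S C w f h1) (pt_on S C w _ h2)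
  have a2 : C.ord f⁻¹ = 0 := by
    unfold Crv.ord at *
    rw [Pl.ord_inv, a1, neg_zero]
  have a3 := ord_rs_mul w h0 (inv_ne_zero h0) a1 a2
  rw [mul_inv_cancel₀ h0, C.rs_one, P019P.ord_one] at a3
  have a4 := ((P019P.mem_iff_ord w _).1 (rs_mem S C w h1)).resolve_left (rs_ne h0 a1)
  have a5 := ((P019P.mem_iff_ord w _).1 (rs_mem S C w h2)).resolve_left
    (rs_ne (inv_ne_zero h0) a2)
  exact ⟨a1, by omega⟩

theorem pt_van (C : Crv S.W) (w : Plk ℂ C.Fn) (f : K) (hf : f ∈ (S.pt C w).ring) :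
    (S.pt C w).Van f ↔ C.rs f ∈ Mge w 1 := by
  rw [P019P.mem_Mge]
  constructor
  · intro h
    obtain ⟨h1, h2⟩ := (S.pt C w).van_iff.1 h
    have h3 := Len.dom (C.rho (pt_on S C w))
      ((Crv.le_cv_iff _).1 ((pt_iff_le S C w _).1 rfl)) h2
    rw [C.rs_of_mem (pt_on S C w f h1), ord_pl]
    exact h3
  · intro h
    by_contra hc
    obtain ⟨h1, h2⟩ := Pt.inv_mem hf hc
    obtain ⟨h3, h4⟩ := ord_unit S C w h1 hf h2
    rcases h with h | h
    · exact rs_ne h1 h3 h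
    · omega

/-- A linear form that vanishes at a given point of a curve, but not on the curve. -/
theorem exists_van (C : Crv S.W) (x : Pt S.W) : ∃ l ∈ van x, C.In l := by
  obtain ⟨w₀, h1, h2⟩ := C.exists_in
  obtain ⟨y, hy, hxy⟩ := (S.all.inf_pt C w₀ h1 h2).nontrivial.exists_ne x
  obtain ⟨l, h3, h4⟩ := S.all.sep x y hxy.symm
  exact ⟨l, h3, hy.1.crv_in h4⟩

theorem on_iff (C : Crv S.W) (x : Pt S.W) : x.On C ↔ ∃ w, S.pt C w = x := by
  refine ⟨fun hx => ?_, fun ⟨w, h⟩ => h ▸ pt_on S C w⟩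
  obtain ⟨l, hl, hC⟩ := exists_van S C x
  have hL := S.all.toLoc
  have h1 := eff_of_mem hL.toLoc2 (mem_H0_H hL.toLoc2 hl.1) hC.1
  have h2 : (S.H + div S.W l) C = 0 := by
    rw [Finsupp.add_apply, div_apply hL.toLoc2, hL.hyp_in C l hl.1 hC, neg_add_cancel]
  have h3 := (S.all.multPos x (Finsupp.single C 1) _ (Finsupp.single_nonneg.2 zero_le_one) h1
    fun C' => by
      by_cases e : C' = C
      · exact Or.inr (e ▸ h2)
      · exact Or.inl (Finsupp.single_eq_of_ne e)).2.2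
    ⟨⟨C, hx, by simp⟩, hyp_van hL.toLoc2 hl hC.1⟩
  obtain ⟨s, hs⟩ := hL.gen x (-(S.H + div S.W l))
  have h4 := (Surf.mult_eq hL hx h2 ⟨s, Surf.gen_mem hL h1 hs⟩ hs).2
  by_contra hc
  haveI : IsEmpty {w : PlaceOver ℂ C.Fn // ∀ r, C.rho hx r ∈ w.1.ring} := ⟨fun w => hc
    ⟨P297.H2.toPlk w.1, (pt_iff_le S C _ x).2 (by
      rw [pl_toPlk]; exact (Crv.le_cv_iff hx).2 w.2)⟩⟩
  rw [finsum_of_isEmpty] at h4
  exact h3 (by exact_mod_cast h4)

theorem fin_pt (C : Crv S.W) (x : Pt S.W) : {w | S.pt C w = x}.Finite := by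
  obtain ⟨l, hl, hC⟩ := exists_van S C x
  obtain ⟨w₀, h1, h2⟩ := x.exists_in
  by_cases hx : x.On C
  · have h3 := hl.2 w₀ h1 h2
    have h4 := div_ne_zero hC.1 h2.1
    have h5 : C.ord (l / w₀) = 0 := by
      have := (Crv.in_iff (hx.crv_in h2) h1 hl.1 hC.1).1 hC
      unfold Crv.ord at *
      rw [Pl.ord_div _ hC.1 h2.1, this, sub_self]
    refine (P019P.dv_finite (k := ℂ) (rs_ne h4 h5)).subset fun w hw => ?_
    have hw' : S.pt C w = x := hw
    subst hw'
    have h6 := ((pt_van S C w _ h3.1).1 h3).resolve_left (rs_ne h4 h5)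
    intro h7
    omega
  · exact Set.finite_empty.subset fun w hw => hx ((on_iff S C x).2 ⟨w, hw⟩)

/-- A function without zeros and poles along the curves through a point is a unit. -/
theorem unit_of (x : Pt S.W) {f : K} (h : ∀ C, x.On C → C.ord f = 0) :
    f ∈ x.ring ∧ f⁻¹ ∈ x.ring := by
  refine ⟨(S.all.normal x _).1 (Or.inr fun C hC => by simp [h C hC]),
    (S.all.normal x _).1 (Or.inr fun C hC => ?_)⟩
  have := h C hC
  unfold Crv.ord at *
  rw [Pl.ord_inv, this]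
  simp

variable {S} in
theorem gen_ord {x : Pt S.W} {D : Div S.W} {t : K} (ht : GenAt x (-D) t) {C : Crv S.W}
    (hC : x.On C) : C.ord t = D C := by
  have := ht.2 C hC
  rw [Finsupp.neg_apply] at this
  omega

/-- The order does not depend on the local equation. -/
theorem ord_gen (C : Crv S.W) {D : Div S.W} (hD : D C = 0) (w : Plk ℂ C.Fn) {s t : K}
    (hs : GenAt (S.pt C w) (-D) s) (ht : GenAt (S.pt C w) (-D) t) :
    P019P.ord w (C.rs s) = P019P.ord w (C.rs t) := by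
  have h0 := div_ne_zero hs.1 ht.1
  obtain ⟨h1, h2⟩ := unit_of S (S.pt C w) (f := s / t) fun C' hC' => by
    have a1 := gen_ord hs hC'
    have a2 := gen_ord ht hC'
    unfold Crv.ord at *
    rw [Pl.ord_div _ hs.1 ht.1, a1, a2, sub_self]
  obtain ⟨h3, h4⟩ := ord_unit S C w h0 h1 h2
  have h5 := ord_rs_mul w h0 ht.1 h3 ((gen_ord ht (pt_on S C w)).trans hD)
  rwa [div_mul_cancel₀ _ ht.1, h4, zero_add] at h5

theorem fin_rst (C : Crv S.W) {D : Div S.W} (hD : D C = 0) :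
    (Function.support fun w => P019P.ord w (C.rs (S.eqn (S.pt C w) D))).Finite := by
  have h1 := meet_finite S.all.toLoc1 (Z := C.cl) (Z' := D) fun C' => by
    by_cases e : C' = C
    · exact Or.inr (e ▸ hD)
    · exact Or.inl (Finsupp.single_eq_of_ne e)
  refine (h1.biUnion fun x _ => fin_pt S C x).subset fun w hw => ?_
  refine Set.mem_biUnion (x := S.pt C w) ⟨⟨C, pt_on S C w, by simp⟩, ?_⟩ rfl
  by_contra hc
  push Not at hc
  have h2 := S.eqn_spec (S.pt C w) D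
  obtain ⟨h3, h4⟩ := unit_of S (S.pt C w) (f := S.eqn (S.pt C w) D) fun C' hC' =>
    (gen_ord h2 hC').trans (hc C' hC')
  exact hw (ord_unit S C w h2.1 h3 h4).2

theorem rst_apply (C : Crv S.W) (D : Div S.W) (hD : D C = 0) (w : Plk ℂ C.Fn) (t : K)
    (ht : GenAt (S.pt C w) (-D) t) : S.rst C D w = P019P.ord w (C.rs t) := by
  rw [Surf.rst, toFs_apply (fin_rst S C hD)]
  exact ord_gen S C hD w (S.eqn_spec _ D) ht

theorem rst_add (C : Crv S.W) (D D' : Div S.W) (hD : D C = 0) (hD' : D' C = 0) :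
    S.rst C (D + D') = S.rst C D + S.rst C D' := by
  ext w
  have h1 := S.eqn_spec (S.pt C w) D
  have h2 := S.eqn_spec (S.pt C w) D'
  have h3 : GenAt (S.pt C w) (-(D + D')) (S.eqn (S.pt C w) D * S.eqn (S.pt C w) D') := by
    refine ⟨mul_ne_zero h1.1 h2.1, fun C' hC' => ?_⟩
    have a1 := gen_ord h1 hC'
    have a2 := gen_ord h2 hC'
    unfold Crv.ord at *
    rw [Pl.ord_mul _ h1.1 h2.1, a1, a2, Finsupp.neg_apply, Finsupp.add_apply, add_neg_cancel]
  rw [Finsupp.add_apply, rst_apply S C D hD w _ h1, rst_apply S C D' hD' w _ h2,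
    rst_apply S C _ (by rw [Finsupp.add_apply, hD, hD', add_zero]) w _ h3]
  exact ord_rs_mul w h1.1 h2.1 ((gen_ord h1 (pt_on S C w)).trans hD)
    ((gen_ord h2 (pt_on S C w)).trans hD')

theorem rst_zero (C : Crv S.W) : S.rst C 0 = 0 := by
  have h := rst_add S C 0 0 rfl rfl
  rw [add_zero] at h
  exact left_eq_add.1 h

theorem rst_neg (C : Crv S.W) (D : Div S.W) (hD : D C = 0) : S.rst C (-D) = - S.rst C D := by
  have h := rst_add S C D (-D) hD (by rw [Finsupp.neg_apply, hD, neg_zero])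
  rw [add_neg_cancel, rst_zero] at h
  exact eq_neg_of_add_eq_zero_right h.symm

theorem rst_sub (C : Crv S.W) (D D' : Div S.W) (hD : D C = 0) (hD' : D' C = 0) :
    S.rst C (D - D') = S.rst C D - S.rst C D' := by
  rw [sub_eq_add_neg, rst_add S C D _ hD (by rw [Finsupp.neg_apply, hD', neg_zero]),
    rst_neg S C D' hD', sub_eq_add_neg]

theorem rst_zsmul (C : Crv S.W) (n : ℤ) (D : Div S.W) (hD : D C = 0) :
    S.rst C (n • D) = n • S.rst C D := by
  have h : ∀ m : ℤ, (m • D) C = 0 := fun m => by rw [Finsupp.smul_apply, hD, smul_zero]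
  induction n using Int.induction_on with
  | zero => rw [zero_smul, zero_smul, rst_zero]
  | succ n ih => rw [add_smul, add_smul, one_smul, one_smul, rst_add S C _ _ (h _) hD, ih]
  | pred n ih => rw [sub_smul, sub_smul, one_smul, one_smul, rst_sub S C _ _ (h _) hD, ih]

theorem gen_div (x : Pt S.W) {f : K} (hf : f ≠ 0) : GenAt x (- div S.W f) f :=
  ⟨hf, fun C _ => by rw [Finsupp.neg_apply, div_apply S.all.toLoc.toLoc2, add_neg_cancel]⟩

theorem rst_div (C : Crv S.W) (f : K) (hf : f ≠ 0) (h : C.ord f = 0) :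
    S.rst C (div S.W f) = dv ℂ (C.rs f) := by
  ext w
  rw [P019P.dv_apply]
  exact rst_apply S C _ ((div_apply S.all.toLoc.toLoc2 f C).trans h) w f (gen_div S _ hf)

end CsH

end Vale.Agent.P297Z.Sf
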