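import Vale.Agent.P297Y.Alg.Sk
import Vale.Agent.P025.R2.H816.Pic
import Vale.Agent.P025.R2.H492.Ext3

/-! P297, positive irregularity: three facts on curves. -/

set_option linter.all false

namespace Vale.Agent.P297Z.Sf

open Vale.Agent.P019P
open P025H492 (down push ram)

namespace Cv

variable {E : Type} [Field E] [Algebra ℂ E] [CFF ℂ E]

/-- an effective divisor of degree one is a place -/
theorem eff_one {P : Type} {D : P →₀ ℤ} (h : 0 ≤ D) (h1 : dg D = 1) :
    ∃ p, D = Finsupp.single p 1 := by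
  classical
  have key : ∀ (A : P →₀ ℤ), 0 ≤ A → ∀ q n, n ≤ A q → Finsupp.single q n ≤ A := by
    intro A hA q n hn r
    rw [Finsupp.single_apply]
    split_ifs with e
    · exact e ▸ hn
    · exact hA r
  have hne : D ≠ 0 := by
    rintro rfl
    simp at h1
  obtain ⟨p, hp⟩ := Finsupp.ne_iff.1 hne
  have hp1 : 1 ≤ D p := by
    have h2 : 0 ≤ D p := h p
    have h3 : D p ≠ 0 := hp
    omega
  have h4 : 0 ≤ D - Finsupp.single p 1 := sub_nonneg.2 (key D h p 1 hp1)
  refine ⟨p, sub_eq_zero.1 (Finsupp.ext fun q => le_antisymm ?_ (h4 q))⟩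
  have h5 := dg_mono (key _ h4 q _ le_rfl)
  rw [dg_sgl, map_sub, h1, dg_sgl, sub_self] at h5
  exact h5

/-- on a curve of positive genus two linearly equivalent places are equal -/
theorem eq_of_prn (hg : 1 ≤ gen ℂ E) {p q : Plk ℂ E}
    (h : Finsupp.single p (1 : ℤ) - Finsupp.single q 1 ∈ prn ℂ E) : p = q := by
  classical
  by_contra hne
  obtain ⟨z, hz, e⟩ := h
  have ho : ∀ r, ord r z = (if p = r then 1 else 0) - (if q = r then 1 else 0) := by
    intro r
    rw [← dv_apply, ← e, Finsupp.sub_apply, Finsupp.single_apply, Finsupp.single_apply]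
  have hpow : ∀ (n : ℕ) (r : Plk ℂ E), ord r (z ^ n) = n * ord r z := by
    intro n r
    induction n with
    | zero => simpa using ord_const r (1 : ℂ)
    | succ n ih =>
      rw [pow_succ, ord_mul r (pow_ne_zero n hz) hz, ih]
      push_cast
      ring
  have hl : ∀ n : ℕ, Module.finrank ℂ (LL ℂ (Finsupp.single q (n : ℤ))) = n + 1 := by
    intro n
    induction n with
    | zero => rw [Nat.cast_zero, Finsupp.single_zero, l_zero]
    | succ n ih =>
      rw [Nat.cast_succ, Finsupp.single_add, l_step_of_mem (z := z ^ (n + 1)), ih]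
      · refine Or.inr fun r => ?_
        rw [hpow, ho, Finsupp.add_apply, Finsupp.single_apply, Finsupp.single_apply]
        push_cast
        split_ifs <;> omega
      · rintro (h0 | h0)
        · exact pow_ne_zero _ hz h0
        · have h1 := h0 q
          rw [hpow, ho, Finsupp.single_eq_same, if_neg hne, if_pos rfl] at h1
          push_cast at h1
          omega
  have h1 := RR_large (D := Finsupp.single q ((2 * gen ℂ E : ℕ) : ℤ))
    (by rw [P025H492.dg_can_eq, dg_sgl]; push_cast; omega)
  rw [hl, dg_sgl] at h1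
  push_cast at h1
  omega

/-- the sum of the values of `c` -/
noncomputable def ev {P Q : Type} [AddCommGroup Q] (c : P → Q) : (P →₀ ℤ) →+ Q :=
  Finsupp.liftAddHom fun w => zmultiplesHom Q (c w)

theorem ev_eq {P Q : Type} [AddCommGroup Q] (c : P → Q) (D : P →₀ ℤ) :
    ev c D = D.sum fun w n => n • c w := by
  rw [ev, Finsupp.liftAddHom_apply]
  rfl

theorem ev_single {P Q : Type} [AddCommGroup Q] (c : P → Q) (w : P) (n : ℤ) :
    ev c (Finsupp.single w n) = n • c w := by
  simp [ev]

end Cv

theorem mov : MOV := by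
  intro E _ _ _ T D
  obtain ⟨z, hz, h⟩ := exists_ord_eq T fun w => D w
  refine ⟨D - dv ℂ z, ⟨z, hz, by abel⟩, fun w hw => ?_⟩
  rw [Finsupp.sub_apply, dv_apply, h w hw, sub_self]

theorem const : CONST := by
  intro E _ _ _ Q _ c hc N T hN hT w w'
  have hk : ∀ D ∈ prn ℂ E, Cv.ev c D = 0 := fun D hD => (Cv.ev_eq c D).trans (hc D hD)
  have key : ∀ D : Plk ℂ E →₀ ℤ, dg D = 0 → N • Cv.ev c D = 0 := by
    intro D hD
    obtain ⟨D', h1, h2⟩ := mov E T D
    have h3 : Cv.ev c D = Cv.ev c D' := by
      have := hk _ h1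
      rwa [map_sub, sub_eq_zero] at this
    have h4 : dg D' = 0 := by
      obtain ⟨z, -, e⟩ := h1
      have := dg_dv (k := ℂ) z
      rw [← e, map_sub, hD] at this
      omega
    rw [h3]
    rcases D'.support.eq_empty_or_nonempty with h5 | ⟨w₀, h5⟩
    · rw [Finsupp.support_eq_empty.1 h5, map_zero, smul_zero]
    have hT' : ∀ v ∈ D'.support, v ∉ T := fun v hv hvT => Finsupp.mem_support_iff.1 hv (h2 v hvT)
    have h6 : ∑ v ∈ D'.support, D' v = 0 := by
      rw [dg_apply] at h4
      exact h4
    have h7 : Cv.ev c D' = ∑ v ∈ D'.support, D' v • (c v - c w₀) := by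
      rw [Cv.ev_eq, Finsupp.sum]
      simp only [smul_sub, Finset.sum_sub_distrib]
      rw [← Finset.sum_smul, h6, zero_smul, sub_zero]
    rw [h7, Finset.smul_sum]
    refine Finset.sum_eq_zero fun v hv => ?_
    rw [smul_comm, hT v (hT' v hv) w₀ (hT' w₀ h5), smul_zero]
  obtain ⟨A, hA, h⟩ := P025H816.pic0_div (k := ℂ) (F := E) (n := N) (by exact_mod_cast hN)
    (Finsupp.single w 1 - Finsupp.single w' 1) (by rw [map_sub, dg_sgl, dg_sgl, sub_self])
  have h1 := hk _ h
  rw [map_sub, map_nsmul, key A hA, sub_zero, map_sub, Cv.ev_single, Cv.ev_single, one_smul,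
    one_smul] at h1
  exact sub_eq_zero.1 h1

theorem tt : TT := by
  intro k E _ _ _ _ _ _ _ _ _ hE hk w w' hw
  classical
  have hg : gen ℂ E = 1 := le_antisymm hE (hk.trans (P025H492.gen_le ℂ k E))
  set δ : Plk ℂ E →₀ ℤ := Finsupp.single w 1 - Finsupp.single w' 1 with hδ
  have hδ0 : dg δ = 0 := by rw [hδ, map_sub, dg_sgl, dg_sgl, sub_self]
  have hδ1 : push k δ = 0 := by
    rw [hδ, map_sub, P025H492.push_single, P025H492.push_single, hw, sub_self]
  have key : ∀ j : ℕ, ∃ v : Plk ℂ E, down k v = down k w' ∧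
      Finsupp.single v (1 : ℤ) - (Finsupp.single w' 1 + j • δ) ∈ prn ℂ E := by
    intro j
    have h1 : dg (Finsupp.single w' 1 + j • δ) = 1 := by
      rw [map_add, map_nsmul, hδ0, dg_sgl, smul_zero, add_zero]
    have h2 := RR_large (D := Finsupp.single w' 1 + j • δ)
      (by rw [P025H492.dg_can_eq, h1, hg]; norm_num)
    rw [h1, hg] at h2
    obtain ⟨z, hz, h3⟩ := exists_ne_zero_of_l (D := Finsupp.single w' 1 + j • δ) (by omega)
    obtain ⟨v, hv⟩ := Cv.eff_one h3 (by rw [map_add, h1, dg_dv, add_zero])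
    have h4 : Finsupp.single v (1 : ℤ) - (Finsupp.single w' 1 + j • δ) ∈ prn ℂ E :=
      ⟨z, hz, by rw [← hv]; abel⟩
    refine ⟨v, Cv.eq_of_prn hk ?_, h4⟩
    have h5 := P025H492.push_prn (K := k) h4
    rwa [map_sub, map_add, map_nsmul, hδ1, smul_zero, add_zero, P025H492.push_single,
      P025H492.push_single] at h5
  choose v hv1 hv2 using key
  have hcard : (P025H492.over_finite (L := E) (down k w')).toFinset.card ≤ Module.finrank k E := by
    rw [← P025H492.sum_ram (down k w'), Finset.card_eq_sum_ones]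
    exact Finset.sum_le_sum fun x _ => P025H492.ram_pos x
  have main : ∀ i j : ℕ, i < j → j ≤ Module.finrank k E → v i = v j →
      (Module.finrank k E).factorial • δ ∈ prn ℂ E := by
    intro i j hij hj e
    have h1 := (prn ℂ E).sub_mem (hv2 i) (hv2 j)
    have h2 : Finsupp.single (v i) (1 : ℤ) - (Finsupp.single w' 1 + i • δ) -
        (Finsupp.single (v j) 1 - (Finsupp.single w' 1 + j • δ)) = (j - i) • δ := by
      rw [e, sub_nsmul δ hij.le]
      abel
    rw [h2] at h1
    obtain ⟨m, hm⟩ := Nat.dvd_factorial (show 0 < j - i by omega)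
      (show j - i ≤ Module.finrank k E by omega)
    rw [hm, mul_nsmul]
    exact (prn ℂ E).nsmul_mem h1 m
  obtain ⟨i, hi, j, hj, hne, e⟩ := Finset.exists_ne_map_eq_of_card_lt_of_maps_to
    (s := Finset.range (Module.finrank k E + 1))
    (t := (P025H492.over_finite (L := E) (down k w')).toFinset) (f := v)
    (by rw [Finset.card_range]; omega)
    (fun x _ => by simpa using hv1 x)
  rw [Finset.mem_range] at hi hj
  rcases lt_or_gt_of_ne hne with h | h
  · exact main i j h (by omega) e
  · exact main j i h (by omega) e.symm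

end Vale.Agent.P297Z.Sf
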