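import Vale.Agent.P297Y.Alg.Sk
import Vale.Agent.P297Y.An.Par
import Vale.Agent.P297Y.Ctr.Hodge

/-! P297, positive irregularity: from the general fibres to all the zero-cycles. -/

set_option linter.all false

namespace Vale.Agent.P297Z.Sf

open Vale.Agent.P019P (CFF Plk LL Mge gen dg dv prn)
open P025H492 (down)

variable {K : Type} [Field K] [Algebra ℂ K]

namespace Ex

/-- The linear extension of a map. -/
noncomputable def sm {α Q : Type} [AddCommGroup Q] (b : α → Q) : (α →₀ ℤ) →+ Q :=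
  Finsupp.liftAddHom fun a => zmultiplesHom Q (b a)

theorem sm_apply {α Q : Type} [AddCommGroup Q] (b : α → Q) (D : α →₀ ℤ) :
    sm b D = D.sum fun a n => n • b a := by
  rw [sm, Finsupp.liftAddHom_apply]; rfl

theorem sm_single {α Q : Type} [AddCommGroup Q] (b : α → Q) (a : α) (n : ℤ) :
    sm b (Finsupp.single a n) = n • b a := by simp [sm]

theorem kill_sum {S : Surf K} {Q : Type} [AddCommGroup Q] {c : Pt S.W → Q} (hc : S.Kill c)
    (C : Crv S.W) : ∀ D ∈ prn ℂ C.Fn, D.sum (fun w n => n • c (S.pt C w)) = 0 := fun D hD => by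
  rw [← sm_apply]
  exact hc C D hD

theorem prn_of_gen {E : Type} [Field E] [Algebra ℂ E] [CFF ℂ E] (h : gen ℂ E = 0)
    {D : Plk ℂ E →₀ ℤ} (hD : dg D = 0) : D ∈ prn ℂ E := by
  have h1 := P019P.RR (-D)
  rw [map_neg, hD, h] at h1
  have h2 : LL ℂ (-D) ≠ ⊥ := fun e => by
    rw [e, finrank_bot] at h1
    omega
  obtain ⟨f, hf, h0⟩ := (Submodule.ne_bot_iff _).1 h2
  have h3 : D ≤ dv ℂ f := fun w => by
    have := hf.resolve_left h0 w
    rw [P019P.dv_apply]
    simpa using this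
  refine ⟨f, h0, ?_⟩
  ext w
  by_contra hc
  have h4 : D + Finsupp.single w 1 ≤ dv ℂ f := fun w' => by
    have h5 := h3 w'
    rw [Finsupp.add_apply]
    by_cases e : w = w'
    · subst e
      rw [Finsupp.single_eq_same]
      omega
    · rw [Finsupp.single_eq_of_ne' e]
      omega
  have h5 := P019P.dg_mono h4
  rw [map_add, P019P.dg_sgl, P019P.dg_dv, hD] at h5
  omega

theorem on_good {S : Surf K} {P : Pen S} (hB : P.Bas) {C : Crv S.W} {x : Pt S.W}
    (hC : P.Good (P.π x) C) : x.On C := by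
  obtain ⟨C', h1, h2⟩ := hB.ex_over x
  have h3 := hB.fib_pos C' _ h2
  rw [hC.fib_eq] at h3
  by_cases e : C = C'
  · exact e ▸ h1
  · rw [Finsupp.single_eq_of_ne' e] at h3
    exact absurd h3 (lt_irrefl _)

end Ex

open Ex

theorem ext_of (cs : CS) (penb : PENB) (penn : PENN) (genf : GENF) (mov : MOV) (cst : CONST)
    (hprn : PRN) : EXT := by
  classical
  intro K _ _ S P hT Q _ c hc z hz
  have hC := cs K S
  have hB := penb K S P
  have hN := penn K S P
  obtain ⟨T₁, h1⟩ := hT Q c hc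
  obtain ⟨T₂, h2⟩ := genf K S P
  have hA : ∀ x y, P.π y = P.π x → P.π x ∉ T₁ ∪ T₂ → c x = c y := fun x y e hx => by
    rw [Finset.mem_union, not_or] at hx
    obtain ⟨C, hG⟩ := h2 _ hx.2
    obtain ⟨N, h0, T', h⟩ := h1 _ hx.1 C hG
    obtain ⟨w, rfl⟩ := (hC.on_iff C x).1 (on_good hB hG)
    obtain ⟨w', rfl⟩ := (hC.on_iff C y).1 (on_good hB (e ▸ hG))
    exact cst C.Fn Q (fun w => c (S.pt C w)) (kill_sum hc C) N T' h0 h w w'
  let b : Plk ℂ P.k → Q := fun p => if h : ∃ x, P.π x = p then c h.choose else 0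
  have hb : ∀ x, P.π x ∉ T₁ ∪ T₂ → c x = b (P.π x) := fun x hx => by
    have h : ∃ y, P.π y = P.π x := ⟨x, rfl⟩
    simp only [b, dif_pos h]
    exact hA x _ h.choose_spec hx
  have hD : ∀ x, ∃ D : Plk ℂ P.k →₀ ℤ, Finsupp.single (P.π x) 1 - D ∈ prn ℂ P.k ∧
      (∀ p ∈ T₁ ∪ T₂, D p = 0) ∧ c x = sm b D := fun x => by
    obtain ⟨C, hx, hH⟩ := hB.ex_hor x
    haveI : Fact (P.Hor C) := ⟨hH⟩
    obtain ⟨w, rfl⟩ := (hC.on_iff C x).1 hx
    obtain ⟨D, h3, h4⟩ := mov C.Fn ((T₁ ∪ T₂).biUnion fun p =>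
      (P025H492.over_finite (L := C.Fn) p).toFinset) (Finsupp.single w 1)
    have h5 : ∀ w', down P.k w' ∈ T₁ ∪ T₂ → D w' = 0 := fun w' hw' =>
      h4 w' (Finset.mem_biUnion.2 ⟨_, hw', P025H492.mem_over.2 rfl⟩)
    refine ⟨P025H492.push P.k D, ?_, fun p hp => ?_, ?_⟩
    · have h6 := P025H492.push_prn (K := P.k) h3
      rwa [map_sub, P025H492.push_single, hN.down_eq] at h6
    · rw [P025H492.push_apply]
      exact Finset.sum_eq_zero fun w' hw' => h5 w' (by rwa [P025H492.mem_over.1 hw'])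
    · have h6 := hc C _ h3
      rw [map_sub, S.cyc_single, one_smul, sub_eq_zero] at h6
      rw [h6]
      conv_lhs => rw [← D.sum_single]
      conv_rhs => rw [← D.sum_single]
      rw [Finsupp.sum, map_sum, map_sum, map_sum]
      refine Finset.sum_congr rfl fun w' hw' => ?_
      rw [S.cyc_single, P025H492.push_single, sm_single, hN.down_eq, ← hb]
      rw [← hN.down_eq]
      exact fun e => Finsupp.mem_support_iff.1 hw' (h5 w' e)
  choose D h3 h4 h5 using hD
  have h6 : sm D z ∈ prn ℂ P.k := by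
    have h7 : Finsupp.mapDomain P.π z - sm D z ∈ prn ℂ P.k := by
      rw [sm_apply, Finsupp.mapDomain, Finsupp.sum, Finsupp.sum, ← Finset.sum_sub_distrib]
      refine sum_mem fun x _ => ?_
      have h8 := (prn ℂ P.k).zsmul_mem (h3 x) (z x)
      rwa [smul_sub, Finsupp.smul_single, smul_eq_mul, mul_one] at h8
    simpa using sub_mem hz h7
  obtain ⟨x₀⟩ := S.all.pt_ne
  obtain ⟨C, -, hH⟩ := hB.ex_hor x₀
  haveI : Fact (P.Hor C) := ⟨hH⟩
  have h7 := hprn P.k C.Fn Q (fun w => c (S.pt C w)) b (T₁ ∪ T₂) (kill_sum hc C)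
    (fun w hw => by rw [hN.down_eq] at hw ⊢; exact hb _ hw) _ h6 (fun p hp => by
      rw [sm_apply, Finsupp.sum, Finsupp.finset_sum_apply]
      exact Finset.sum_eq_zero fun x _ => by rw [Finsupp.smul_apply, h4 x p hp, smul_zero])
  rw [← sm_apply, sm_apply D, Finsupp.sum, map_sum] at h7
  rw [← h7, Finsupp.sum]
  exact Finset.sum_congr rfl fun x _ => by rw [map_zsmul, ← h5]

theorem ruled_of (gle : GLE) (penn : PENN) : RULED := by
  intro K _ _ S P h Q _ c hc
  have hN := penn K S P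
  refine ⟨∅, fun p _ C hG => ⟨1, one_ne_zero, ∅, fun w _ w' _ => ?_⟩⟩
  have h1 := gle K S C
  rw [Surf.ag, ← hG.fib_eq, hN.num_fib, inter_comm P.F, hN.num_fib, hN.F_sq, inter_comm,
    hN.num_fib, inter_comm] at h1
  have h2 := hc C (Finsupp.single w 1 - Finsupp.single w' 1) (prn_of_gen (by omega) (by
    rw [map_sub, P019P.dg_sgl, P019P.dg_sgl, sub_self]))
  rw [map_sub, S.cyc_single, S.cyc_single, one_smul, one_smul] at h2
  rw [h2, smul_zero]

theorem Fib.u_ne {S : Surf K} (φ : Fib S) (c : ℂ) : (φ.u : K) ≠ algebraMap ℂ K c :=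
  fun e => φ.u_nc c (Subtype.ext e)

theorem Fib.a_ne' {S : Surf K} (φ : Fib S) : (φ.a : K) ≠ 0 := fun e => φ.a_ne (Subtype.ext e)

theorem Fib.M_nonneg {S : Surf K} (hD : S.Dr) (φ : Fib S) : 0 ≤ φ.M := fun C => by
  obtain ⟨δ, h1, -, h2⟩ := (hD.fd_least _ _ φ.a_ne' φ.u_ne C).1
  have h3 := Pl.ord_nonneg_of_mem C.pl (φ.reg C δ h1)
  rw [h2] at h3
  exact h3

theorem zero_of (noe : NOE) (gq : GQ) (der : DER) (penn : PENN) (pend : PEND) : ZERO := by
  intro K _ _ S hp hn φ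
  have hA := S.all
  have h1 := noe K S φ.toFib
  have h2 : (gen ℂ φ.k : ℤ) ≤ S.h1 0 := gq K S φ.pen
  have h3 := (regb K S hA φ.toFib).2
  have h4 := φ.toFib.M_nonneg (der K S)
  have h5 := Hd.nef_sq hA hn
  have h6 := Rul.nef_eff hA hn h4
  have h7 : inter φ.M φ.M ≤ 0 := (penn K S φ.pen).vert_sq φ.M fun C hC =>
    (pend K S φ.pen).fd_hor φ.a φ.u φ.a_ne φ.u_nc C hC
  have h8 : S.h1 0 = 1 - chi (0 : Div S.W) := by
    rw [Surf.h1, sub_zero, h0_bot hp, h0_zero hA.toLoc2, add_zero]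
  rw [← interHom_apply hA.toRR φ.M, map_sub, interHom_apply, interHom_apply,
    inter_comm φ.M S.kap] at h1
  exact ⟨hp, hn, by omega, by omega, by omega, by omega, by omega, by omega, h4⟩

end Vale.Agent.P297Z.Sf
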