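import Vale.Agent.P297Y.Alg.Sk
import Vale.Agent.P297Y.Fb.H1

/-! P297, positive irregularity: the bound for the first Cech cohomology. -/

set_option linter.all false

namespace Vale.Agent.P297Z.Sf

theorem h1le : H1LE := fun K _ _ S D V _ _ _ φ hφ =>
  Surf.h1le S.all D (fun i => (LinearMap.proj i).comp φ) fun i j n => hφ n i j

end Vale.Agent.P297Z.Sf
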