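import Vale.Agent.P297Y.Alg.Sk
import Vale.Agent.P297Y.An.Par

/-! The vector fields tangent to the fibres of a pencil; the base of a second pencil. -/

set_option linter.all false

open IsLocalRing

namespace Vale.Agent.P297Z.Sf

open Vale.Agent.P297 (Place)
open Vale.Agent.P297Z.Dg _root_.P297Z.Diff
open Vale.Agent.P019P (CFF Plk LL gen dg)
open P025H492 (wdv)

variable {K : Type} [Field K] [Algebra ℂ K]

namespace PendA

section Log

variable {W : Submodule ℂ K} {C : Crv W} {Y : Derivation ℂ K K}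

theorem mem_of_ord {f : K} (h : 0 ≤ C.ord f) : f ∈ C.pl.ring := by
  by_cases h0 : f = 0
  · rw [h0]; exact zero_mem _
  · exact (Pl.ord_nonneg_iff _ h0).1 h

theorem int_mem (C : Crv W) (n : ℤ) : (n : K) ∈ C.pl.ring := by
  have := C.const_mem (n : ℂ)
  rwa [map_intCast] at this

theorem int_inv_mem (C : Crv W) (n : ℤ) : (n : K)⁻¹ ∈ C.pl.ring := by
  have := C.const_mem (n : ℂ)⁻¹
  rwa [map_inv₀, map_intCast] at this

theorem log_zpow (Y : Derivation ℂ K K) {b : K} (hb : b ≠ 0) (n : ℤ) :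
    Y (b ^ n) / b ^ n = n * (Y b / b) := by
  rw [Y.leibniz_zpow, zpow_sub_one₀ hb, zsmul_eq_mul, smul_eq_mul]
  have := zpow_ne_zero n hb
  field_simp

theorem log_div (Y : Derivation ℂ K K) {b c : K} (hb : b ≠ 0) (hc : c ≠ 0) :
    Y (b / c) / (b / c) = Y b / b - Y c / c := by
  rw [Y.leibniz_div]
  simp only [smul_eq_mul]
  field_simp

/-- the residues of the logarithmic derivatives are proportional to the orders -/
theorem log_comb (hY : RegDer C.pl Y) {b c : K} (hb : b ≠ 0) (hc : c ≠ 0) :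
    C.ord c * (Y b / b) - C.ord b * (Y c / c) ∈ C.pl.ring := by
  have h1 := zpow_ne_zero (C.ord c) hb
  have h2 := zpow_ne_zero (C.ord b) hc
  have h3 : C.ord (b ^ C.ord c / c ^ C.ord b) = 0 := by
    unfold Crv.ord
    rw [Pl.ord_div _ h1 h2, Pl.ord_zpow, Pl.ord_zpow]
    ring
  obtain ⟨h4, h5⟩ := (Pl.ord_eq_zero_iff _ (div_ne_zero h1 h2)).1 h3
  have h6 := mul_mem (hY _ h4) h5
  rwa [← div_eq_mul_inv, log_div Y h1 h2, log_zpow Y hb, log_zpow Y hc] at h6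

/-- a derivation that is logarithmic at one function with a zero or a pole is logarithmic -/
theorem log_mem (hY : RegDer C.pl Y) {c : K} (hc : C.ord c ≠ 0) (h : Y c / c ∈ C.pl.ring)
    {b : K} (hb : b ≠ 0) : Y b / b ∈ C.pl.ring := by
  have hC : CharZero K := charZero_of_injective_algebraMap (algebraMap ℂ K).injective
  have c0 : c ≠ 0 := by
    rintro rfl
    simp at hc
  have h1 := add_mem (log_comb hY hb c0) (mul_mem (int_mem C (C.ord b)) h)
  have h2 := mul_mem (int_inv_mem C (C.ord c)) h1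
  rwa [sub_add_cancel, inv_mul_cancel_left₀ (Int.cast_ne_zero.2 hc)] at h2

theorem ord_le_of_log {b : K} (hb : b ≠ 0) (h : Y b / b ∈ C.pl.ring) :
    Y b = 0 ∨ C.ord b ≤ C.ord (Y b) := by
  by_cases h0 : Y b = 0
  · exact Or.inl h0
  have := Pl.ord_nonneg_of_mem _ h
  rw [Pl.ord_div _ h0 hb] at this
  unfold Crv.ord
  omega

/-- a regular derivation lowers the order by at most one -/
theorem ord_der_ge (hY : RegDer C.pl Y) {b : K} (hb : b ≠ 0) (h0 : Y b ≠ 0) :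
    C.ord b - 1 ≤ C.ord (Y b) := by
  obtain ⟨s, s0, hs⟩ := Pl.exists_ord_eq_one C.pl
  have hs' : C.ord s = 1 := hs
  have sm : s ∈ C.pl.ring := mem_of_ord (by omega)
  have h1 := add_mem (mul_mem sm (log_comb hY hb s0)) (mul_mem (int_mem C (C.ord b)) (hY s sm))
  have e : s * ((C.ord s : K) * (Y b / b) - C.ord b * (Y s / s)) + C.ord b * Y s =
      s * (Y b / b) := by
    rw [hs']
    field_simp
    push_cast
    ring
  rw [e] at h1
  have h2 := Pl.ord_nonneg_of_mem _ h1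
  rw [Pl.ord_mul _ s0 (div_ne_zero h0 hb), Pl.ord_div _ h0 hb, hs] at h2
  unfold Crv.ord
  omega

/-- a logarithmic derivation descends to the function field of the curve -/
theorem descend (hY : RegDer C.pl Y) {c : K} (hc : C.ord c ≠ 0) (h : Y c / c ∈ C.pl.ring) :
    ∃ D : Derivation ℂ C.Fn C.Fn, ∀ b ∈ C.pl.ring, C.rs (Y b) = D (C.rs b) := by
  choose σ hσ hσ' using C.rs_surj
  have key : ∀ b ∈ C.pl.ring, C.rs (Y b) = C.rs (Y (σ (C.rs b))) := fun b hb => by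
    have h1 : b - σ (C.rs b) ∈ C.pl.ring := sub_mem hb (hσ _)
    have h2 : C.rs (b - σ (C.rs b)) = 0 := by rw [C.rs_sub hb (hσ _), hσ', sub_self]
    rw [← sub_eq_zero, ← C.rs_sub (hY _ hb) (hY _ (hσ _)), ← map_sub, C.rs_eq_zero (hY _ h1)]
    by_cases h3 : b - σ (C.rs b) = 0
    · exact Or.inl (by rw [h3, map_zero])
    have h4 := ((C.rs_eq_zero h1).1 h2).resolve_left h3
    refine (ord_le_of_log h3 (log_mem hY hc h h3)).imp_right fun h5 => by omega
  let L : C.Fn →ₗ[ℂ] C.Fn :=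
    { toFun := fun e => C.rs (Y (σ e))
      map_add' := fun e e' => by
        have := key _ (add_mem (hσ e) (hσ e'))
        rw [C.rs_add (hσ e) (hσ e'), hσ', hσ'] at this
        rw [← this, map_add, C.rs_add (hY _ (hσ e)) (hY _ (hσ e'))]
      map_smul' := fun r e => by
        have h1 : r • σ e ∈ C.pl.ring := by
          rw [Algebra.smul_def]
          exact mul_mem (C.const_mem r) (hσ e)
        have := key _ h1
        rw [C.rs_smul r (hσ e), hσ'] at this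
        rw [← this, Y.map_smul, C.rs_smul r (hY _ (hσ e))]
        rfl }
  refine ⟨Derivation.mk' L fun e e' => ?_, key⟩
  have := key _ (mul_mem (hσ e) (hσ e'))
  rw [C.rs_mul (hσ e) (hσ e'), hσ', hσ'] at this
  change C.rs (Y (σ (e * e'))) = e * C.rs (Y (σ e')) + e' * C.rs (Y (σ e))
  rw [← this, Y.leibniz, smul_eq_mul, smul_eq_mul,
    C.rs_add (mul_mem (hσ e) (hY _ (hσ e'))) (mul_mem (hσ e') (hY _ (hσ e))),
    C.rs_mul (hσ e) (hY _ (hσ e')), C.rs_mul (hσ e') (hY _ (hσ e)), hσ', hσ']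

theorem rs_ne_zero {f : K} (hf : f ∈ C.pl.ring) : C.rs f ≠ 0 ↔ f ≠ 0 ∧ C.ord f = 0 := by
  rw [Ne, C.rs_eq_zero hf, not_or]
  have := Pl.ord_nonneg_of_mem _ hf
  refine and_congr_right fun _ => ?_
  unfold Crv.ord
  omega

end Log

variable {S : Surf K}

/-- a regular derivation tangent to the curve with nonzero restriction -/
theorem exists_tangent (C : Crv S.W) : ∃ (δ : Derivation ℂ K K) (D : Derivation ℂ C.Fn C.Fn),
    RegDer C.pl δ ∧ D ≠ 0 ∧ ∀ b ∈ C.pl.ring, C.rs (δ b) = D (C.rs b) := by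
  have h := S.all
  obtain ⟨i, hi⟩ := h.crv_cover C
  obtain ⟨x, hx, hx'⟩ := (h.inf_pt C _ (S.x_mem i) hi).nonempty
  obtain ⟨-, -, -, -, s, t, -, -, hm⟩ := h.gens x _ (S.x_mem i) hx'
  obtain ⟨d₁, d₂, -, rC, a1, a2, a3, a4, a5⟩ := par K S h x s t hm
  obtain ⟨r1, r2⟩ := rC C hx
  obtain ⟨δ, p, r, b1, b2, b3⟩ := ParA.exists_unit h C
  have pm : p ∈ C.pl.ring := mem_of_ord (by omega)
  have sm := hx _ s.2
  have tm := hx _ t.2
  let δ' : Derivation ℂ K K := d₂ p • d₁ - d₁ p • d₂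
  have v : ∀ a, δ' a = d₂ p * d₁ a - d₁ p * d₂ a := fun a => by simp [δ']
  have r' : RegDer C.pl δ' := fun a ha => by
    rw [v]
    exact sub_mem (mul_mem (r2 p pm) (r1 a ha)) (mul_mem (r1 p pm) (r2 a ha))
  obtain ⟨D, hD⟩ := descend r' (c := p) (by omega) (by
    rw [v, mul_comm, sub_self, zero_div]
    exact zero_mem _)
  refine ⟨δ', D, r', fun h0 => ?_, hD⟩
  have c1 := hD _ sm
  have c2 := hD _ (neg_mem tm)
  rw [h0, v, a1, a3, mul_one, mul_zero, sub_zero] at c1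
  rw [h0, v, map_neg, map_neg, a2, a4, neg_zero, mul_zero, mul_neg, mul_one, sub_neg_eq_add,
    zero_add] at c2
  refine (rs_ne_zero (r p pm)).2 ⟨b2, b3⟩ ?_
  rw [a5 δ p, C.rs_add (mul_mem (r _ sm) (r1 p pm)) (mul_mem (r _ tm) (r2 p pm)),
    C.rs_mul (r _ sm) (r1 p pm), C.rs_mul (r _ tm) (r2 p pm), c1, c2]
  simp

theorem indep_pair (k : IntermediateField ℂ K) {u : k} (hu : Transcendental ℂ u) {f : K}
    (hf : Transcendental k f) : AlgebraicIndependent ℂ ![f, (u : K)] := by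
  have h1 := AlgebraicIndependent.sumElim_comp (algebraicIndependent_iff_transcendental.2 hu)
    (algebraicIndependent_iff_transcendental.2 hf)
  have h2 := h1.comp (![Sum.inl 0, Sum.inr 0] : Fin 2 → Fin 1 ⊕ Fin 1) (by decide)
  have e : (Sum.elim ![f] (algebraMap k K ∘ ![u])) ∘
      (![Sum.inl 0, Sum.inr 0] : Fin 2 → Fin 1 ⊕ Fin 1) = ![f, (u : K)] := by
    funext i
    fin_cases i <;> rfl
  rwa [e] at h2

variable {P : Pen S}

theorem coe_ne {f : P.k} (hf : f ≠ 0) : (f : K) ≠ 0 := fun e => hf (Subtype.ext e)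

theorem coe_nc {u : P.k} (hu : ∀ c : ℂ, u ≠ algebraMap ℂ P.k c) (c : ℂ) :
    (u : K) ≠ algebraMap ℂ K c := fun e => hu c (Subtype.ext e)

theorem ker (hD : S.Dr) {a u : P.k} {X : Derivation ℂ K K} (h : P.Ham a u X) (f : K) :
    X f = 0 ↔ f ∈ P.k := by
  constructor
  · intro h0
    by_contra hf
    have h1 := indep_pair P.k (P019P.finite_of_notMem h.u_nc).1 fun h2 => hf (P.closed f h2)
    obtain ⟨c, hc, h2⟩ := S.all.change _ _ _ _ S.indep h1
    obtain ⟨d, hd⟩ := exists_pl S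
    have d00 : d 0 (S.x 1 / S.x 0) = 1 := hd.dual 0 0
    have d01 : d 0 (S.x 2 / S.x 0) = 0 := hd.dual 0 1
    have d10 : d 1 (S.x 1 / S.x 0) = 0 := hd.dual 1 0
    have d11 : d 1 (S.x 2 / S.x 0) = 1 := hd.dual 1 1
    have h3 := h.ham f (d 0) (d 1)
    rw [h0, zero_mul, h2, wedge, d00, d01, d10, d11] at h3
    simp [hc, coe_ne h.a_ne] at h3
  · intro hf
    obtain ⟨D, -, hD'⟩ := P297Y.Crr.exists_ddx h.u_nc
    have h1 := ParA.der_res P.k hD' X ⟨f, hf⟩
    rw [(hD.ne _ _ _ (coe_ne h.a_ne) (coe_nc h.u_nc) h.ham).2, mul_zero] at h1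
    exact h1

theorem unif_spec (p : Plk ℂ P.k) : P.unif p ≠ 0 ∧ P019P.ord p (P.unif p) = 1 :=
  (P019P.exists_unif p).choose_spec

/-- the restriction of the normalised vector field is not zero -/
theorem exists_val (hD : S.Dr) {X : Derivation ℂ K K} (hX : X ≠ 0) (C : Crv S.W) {t : K}
    (ht : t ≠ 0) (h : S.vd X C = C.ord t) : ∃ b ∈ C.pl.ring, C.rs (t * X b) ≠ 0 := by
  obtain ⟨b, hb, h1, h2⟩ := (hD.vd_least X hX C).1
  refine ⟨b, hb, (rs_ne_zero (hD.reg X hX C t ht h.le b hb)).2 ⟨mul_ne_zero ht h1, ?_⟩⟩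
  change C.pl.ord (t * X b) = 0
  rw [Pl.ord_mul _ ht h1, h2, h]
  exact add_neg_cancel _

theorem fd_hor (hD : S.Dr) (hB : P.Bas) {a u : P.k} (ha : a ≠ 0)
    (hu : ∀ c : ℂ, u ≠ algebraMap ℂ P.k c) {C : Crv S.W} (hC : P.Hor C) : S.fd a u C = 0 := by
  obtain ⟨⟨δ, r, b1, b2⟩, h2⟩ := hD.fd_least a u (coe_ne ha) (coe_nc hu) C
  have h3 : C.pl.ord (a : K) = 0 := hB.ord_hor C hC a
  refine le_antisymm (h2 ?_) (b2 ▸ Pl.ord_nonneg_of_mem _ (mul_mem (hC a) (r _ (hC u))))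
  obtain ⟨δ', D, r', D0, h4⟩ := exists_tangent C
  have h5 : ∀ c : ℂ, C.rs u ≠ algebraMap ℂ C.Fn c := fun c e => by
    refine hu c ((P.toFn hC).toRingHom.injective ?_)
    exact ((C.rs_of_mem (hC u)).symm.trans e).trans ((P.toFn hC).commutes c).symm
  have h6 := P025H492.der_ne_zero D0 h5
  rw [← h4 _ (hC u), rs_ne_zero (r' _ (hC u))] at h6
  refine ⟨δ', r', mul_ne_zero (coe_ne ha) h6.1, ?_⟩
  rw [Pl.ord_mul _ (coe_ne ha) h6.1, h3, zero_add]
  exact h6.2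

theorem fd_over (hD : S.Dr) (hB : P.Bas) {a u : P.k} (ha : a ≠ 0)
    (hu : ∀ c : ℂ, u ≠ algebraMap ℂ P.k c) {C : Crv S.W} {p : Plk ℂ P.k} (hC : P.Over C p) :
    S.fd a u C + 1 = P.fib p C * (P019P.ord p a + wdv ℂ u p + 1) := by
  obtain ⟨⟨δ, r, b1, b2⟩, h2⟩ := hD.fd_least a u (coe_ne ha) (coe_nc hu) C
  obtain ⟨π0, hπ⟩ := unif_spec (P := P) p
  generalize P.unif p = π at π0 hπ
  have nc : ∀ c : ℂ, π ≠ algebraMap ℂ P.k c := fun c e => by
    rw [e, P019P.ord_const] at hπ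
    omega
  obtain ⟨D, hD1, hD'⟩ := P297Y.Crr.exists_ddx nc
  have D0 : D ≠ 0 := fun e => by simp [e] at hD1
  have c1 := P025H492.ord_D_eq_wd D0 hu p
  rw [P025H492.ordD_eq D0 hπ, hD1, P019P.ord_one, add_zero] at c1
  have u0 : D u ≠ 0 := P025H492.der_ne_zero D0 hu
  have o1 : C.pl.ord (a : K) = _ := hB.ord_over C p hC a
  have o2 : C.pl.ord (D u : K) = _ := hB.ord_over C p hC (D u)
  have o3 : C.pl.ord (π : K) = _ := hB.ord_over C p hC π
  rw [hπ, mul_one] at o3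
  have key : ∀ δ : Derivation ℂ K K, δ π ≠ 0 → (a : K) * δ u ≠ 0 ∧ C.pl.ord ((a : K) * δ u) =
      P.fib p C * (P019P.ord p a + wdv ℂ u p) + C.pl.ord (δ π) := fun δ h0 => by
    rw [ParA.der_res P.k hD' δ u]
    refine ⟨mul_ne_zero (coe_ne ha) (mul_ne_zero (coe_ne u0) h0), ?_⟩
    rw [Pl.ord_mul _ (coe_ne ha) (mul_ne_zero (coe_ne u0) h0), Pl.ord_mul _ (coe_ne u0) h0, o1, o2,
      P025H492.wdv_apply hu, ← c1]
    ring
  have m0 := hB.fib_pos C p hC
  obtain ⟨δ', q, r', e1, e2, e3⟩ := ParA.exists_unit S.all C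
  obtain ⟨e4, e5⟩ := ParA.ord_der (f := (π : K)) r' e1 e2 e3 (by change 0 < C.pl.ord _; omega)
  have e6 := h2 ⟨δ', r', (key δ' e4).1, (key δ' e4).2⟩
  have e7 : δ π ≠ 0 := fun e => by
    rw [ParA.der_res P.k hD' δ u, e, mul_zero, mul_zero] at b1
    exact b1 rfl
  have e8 := ord_der_ge r (coe_ne π0) e7
  have e9 := (key δ e7).2
  unfold Crv.ord at e5 e8
  rw [mul_add, mul_one]
  omega

theorem log_over (hD : S.Dr) (hB : P.Bas) {a u : P.k} {X : Derivation ℂ K K} (h : P.Ham a u X)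
    {C : Crv S.W} {p : Plk ℂ P.k} (hC : P.Over C p) (t : K) :
    C.ord (P.unif p) ≠ 0 ∧ (t • X) (P.unif p) / P.unif p ∈ C.pl.ring := by
  constructor
  · rw [hB.ord_over C p hC, (unif_spec p).2, mul_one]
    exact (hB.fib_pos C p hC).ne'
  · rw [Derivation.smul_apply, (ker hD h _).2 (P.unif p).2, smul_zero, zero_div]
    exact zero_mem _

theorem transv (hD : S.Dr) {a u : P.k} {X : Derivation ℂ K K} (h : P.Ham a u X)
    {C : Crv S.W} (hC : P.Hor C) {t : K} (ht : t ≠ 0) (e : S.vd X C = C.ord t) {b : K}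
    (hb : C.ord b ≠ 0) : t * X b ≠ 0 ∧ C.ord (t * X b) = C.ord b - 1 := by
  have hX := (hD.ne _ _ _ (coe_ne h.a_ne) (coe_nc h.u_nc) h.ham).1
  have r := hD.reg X hX C t ht e.le
  have b0 : b ≠ 0 := by
    rintro rfl
    simp at hb
  have h1 : (t • X) b / b ∉ C.pl.ring := fun h1 => by
    obtain ⟨D, h2⟩ := descend r hb h1
    have : Fact (P.Hor C) := ⟨hC⟩
    have : CharZero P.k := charZero_of_injective_algebraMap (algebraMap ℂ P.k).injective
    have : Algebra.FormallyEtale P.k C.Fn := Algebra.FormallyEtale.of_isSeparable _ _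
    have h3 : D = 0 := eq_zero_of_base (P := P.k) fun f => by
      rw [P.algebraMap_fn, ← h2 _ (hC f), Derivation.smul_apply, (ker hD h _).2 f.2, smul_zero,
        C.rs_zero]
    obtain ⟨c, hc, h4⟩ := exists_val hD hX C ht e
    exact h4 ((h2 c hc).trans (by rw [h3]; rfl))
  have h2 : (t • X) b ≠ 0 := fun h2 => h1 (by rw [h2, zero_div]; exact zero_mem _)
  have h3 := ord_der_ge r b0 h2
  rw [← Pl.ord_nonneg_iff _ (div_ne_zero h2 b0), Pl.ord_div _ h2 b0] at h1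
  refine ⟨h2, ?_⟩
  change C.ord ((t • X) b) = _
  unfold Crv.ord at *
  omega

theorem dr (hD : S.Dr) (hB : P.Bas) : P.Dr where
  ker := fun _ _ _ h => ker hD h
  fd_hor := fun _ _ ha hu _ hC => fd_hor hD hB ha hu hC
  fd_over := fun _ _ ha hu _ _ hC => fd_over hD hB ha hu hC
  tang := fun a u X h C p hC t ht e b hb => by
    have hX := (hD.ne _ _ _ (coe_ne h.a_ne) (coe_nc h.u_nc) h.ham).1
    obtain ⟨h1, h2⟩ := log_over hD hB h hC t
    exact ord_le_of_log (Y := t • X) hb (log_mem (hD.reg X hX C t ht e) h1 h2 hb)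
  tang_ne := fun a u X h C p hC t ht e => by
    have hX := (hD.ne _ _ _ (coe_ne h.a_ne) (coe_nc h.u_nc) h.ham).1
    obtain ⟨h1, h2⟩ := log_over hD hB h hC t
    obtain ⟨D, h3⟩ := descend (hD.reg X hX C t ht e.le) h1 h2
    obtain ⟨c, hc, h4⟩ := exists_val hD hX C ht e
    exact ⟨D, fun h5 => h4 ((h3 c hc).trans (by rw [h5]; rfl)), h3⟩
  transv := fun _ _ _ h _ hC _ ht e _ hb => transv hD h hC ht e hb

end PendA

theorem pend (der : DER) (penb : PENB) : PEND :=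
  fun K _ _ S P => PendA.dr (der K S) (penb K S P)

theorem ratb (der : DER) (penb : PENB) (pend : PEND) : RATB := by
  rintro K _ _ S hp φ P ⟨f, hf, hf'⟩
  by_contra h0
  have hB := penb K S P
  have hP := pend K S P
  have nc : ∀ c : ℂ, (⟨f, hf⟩ : P.k) ≠ algebraMap ℂ P.k c := fun c e => by
    have e' : f = algebraMap ℂ K c := congrArg Subtype.val e
    exact hf' (e' ▸ φ.k.algebraMap_mem c)
  obtain ⟨a, ha0, ha⟩ := P019P.exists_ne_zero_of_l (k := ℂ) (D := wdv ℂ (⟨f, hf⟩ : P.k)) (by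
    rw [P297Y.Crr.l_wdv nc]
    omega)
  have h1 : ∀ C, 0 ≤ S.fd a f C := fun C => by
    rcases hB.dich C with h | ⟨p, h⟩
    · exact (hP.fd_hor a ⟨f, hf⟩ ha0 nc C h).ge
    · have h2 := hP.fd_over a ⟨f, hf⟩ ha0 nc C p h
      have h3 := hB.fib_pos C p h
      have h4 := ha p
      rw [Finsupp.add_apply, P019P.dv_apply, Finsupp.zero_apply] at h4
      change S.fd a f C + 1 = _ at h2
      nlinarith
  have h2 : ∀ (C : Crv S.W) (δ : Derivation ℂ K K), RegDer C.pl δ → (a : K) * δ f ∈ C.pl.ring :=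
    fun C δ r => by
      by_cases h3 : (a : K) * δ f = 0
      · rw [h3]; exact zero_mem _
      exact PendA.mem_of_ord ((h1 C).trans (((der K S).fd_least a f (PendA.coe_ne ha0)
        (PendA.coe_nc nc) C).2 ⟨δ, r, h3, rfl⟩))
  have h3 : φ.X f ≠ 0 := fun e => hf' (((pend K S φ.pen).ker _ _ _ φ.pen_ham f).1 e)
  have h4 : (a : K) * φ.X f ≠ 0 := mul_ne_zero (PendA.coe_ne ha0) h3
  refine h4 ((Submodule.eq_bot_iff _).1 hp _ (Or.inr fun C _ => ?_))
  obtain ⟨δ₁, δ₂, r₁, r₂, b1, b2⟩ := (S.all.least _ _ S.indep C).1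
  have h5 : (a : K) * φ.X f * wedge (S.x 1 / S.x 0) (S.x 2 / S.x 0) δ₁ δ₂ =
      a * δ₁ f * (φ.a * δ₂ φ.u) - φ.a * δ₁ φ.u * (a * δ₂ f) := by
    rw [mul_assoc, ← φ.ham f δ₁ δ₂, wedge]
    ring
  have h6 := Pl.ord_nonneg_of_mem _ (h5 ▸ sub_mem (mul_mem (h2 C δ₁ r₁) (φ.reg C δ₂ r₂))
    (mul_mem (φ.reg C δ₁ r₁) (h2 C δ₂ r₂)))
  rw [Pl.ord_mul _ h4 b1, b2] at h6
  exact h6

end Vale.Agent.P297Z.Sf
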