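import Vale.Agent.P297Y.Alg.Sk

/-! P297: principal parts on an affine chart, and the problem of Mittag-Leffler. -/

set_option linter.all false

namespace Vale.Agent.P297Z.Sf

variable {K : Type} [Field K] [Algebra ℂ K]

namespace Pp

theorem mem_secOn_iff {W : Submodule ℂ K} {P : Crv W → Prop} {D : Div W} {f : K} :
    f ∈ secOn P D ↔ ∀ C, P C → f ∈ secAt C D := by
  constructor
  · intro h C hC
    exact mem_secAt.2 (h.imp_right fun h1 => h1 C hC)
  · intro h
    by_cases h0 : f = 0
    · exact Or.inl h0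
    · exact Or.inr fun C hC => (mem_secAt.1 (h C hC)).resolve_left h0

theorem mul_mem_secAt {W : Submodule ℂ K} {C : Crv W} {D : Div W} {a f : K}
    (ha : a ∈ C.pl.ring) (hf : f ∈ secAt C D) : a * f ∈ secAt C D := by
  by_cases h0 : f = 0
  · simp [h0]
  by_cases h1 : a = 0
  · simp [h1]
  have a1 := (mem_secAt.1 hf).resolve_left h0
  have a2 := Pl.ord_nonneg_of_mem C.pl ha
  refine mem_secAt.2 (Or.inr ?_)
  unfold Crv.ord at *
  rw [Pl.ord_mul _ h1 h0]
  omega

/-- A local solution becomes a solution on the chart after multiplication by a function that does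
not vanish at the point. -/
theorem exists_mul (S : Surf K) {D : Div S.W} {h : Crv S.W → K}
    (hf : (Function.support h).Finite) {w : K} (hw : w ∈ S.W) {x : Pt S.W} (hx : x.In w) {g : K}
    (hg : ∀ C, x.On C → g - h C ∈ secAt C D) :
    ∃ b ∈ chart S.W w, ¬ x.Van b ∧ ∀ C, C.In w → b * (g - h C) ∈ secAt C D := by
  classical
  let e : Crv S.W → ℤ := fun C => if g - h C ∈ secAt C D then 0 else C.ord (g - h C) + D C
  have he : (Function.support e).Finite := by
    refine ((hf.union (S.all.fin_div g)).union D.support.finite_toSet).subset fun C hC => ?_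
    by_contra hn
    simp only [Set.mem_union, Function.mem_support, Finset.mem_coe, Finsupp.mem_support_iff,
      not_or, not_not] at hn
    apply hC
    have h1 : g - h C ∈ secAt C D := by
      rw [hn.1.1, sub_zero]
      exact mem_secAt.2 (Or.inr (by rw [hn.1.2, hn.2]; rfl))
    exact if_pos h1
  have h1 : (1 : K) ∈ stalk x (toDiv e) := by
    refine Or.inr fun C hC => ?_
    have a1 : e C = 0 := if_pos (hg C hC)
    have a2 := C.ord_const 1
    rw [map_one] at a2
    rw [toDiv_apply he, a1, a2]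
    rfl
  obtain ⟨b, hb, hv, hs⟩ := S.all.stalk_sec x w hw hx (toDiv e) 1 h1
  rw [mul_one] at hs
  have hb0 : b ≠ 0 := by
    rintro rfl
    exact hv x.van_zero
  refine ⟨b, hb, hv, fun C hC => ?_⟩
  by_cases h2 : g - h C ∈ secAt C D
  · exact mul_mem_secAt (hC.chart_mem hb) h2
  · have a1 : e C = C.ord (g - h C) + D C := if_neg h2
    have a2 := hs.resolve_left hb0 C hC
    have a3 : g - h C ≠ 0 := fun h3 => h2 (mem_secAt.2 (Or.inl h3))
    rw [toDiv_apply he, a1] at a2
    refine mem_secAt.2 (Or.inr ?_)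
    unfold Crv.ord at *
    rw [Pl.ord_mul _ hb0 a3]
    omega

end Pp

open Pp

theorem lift : LIFT := by
  intro K _ _ S D h hh w hw h0
  let J : Ideal (chart S.W w) :=
    { carrier := {b | ∃ g, ∀ C, C.In w → g - (b : K) * h C ∈ secAt C D}
      zero_mem' := ⟨0, fun C _ => by simp⟩
      add_mem' := by
        rintro a b ⟨g, hg⟩ ⟨g', hg'⟩
        refine ⟨g + g', fun C hC => ?_⟩
        have h1 := add_mem (hg C hC) (hg' C hC)
        have e : g - (a : K) * h C + (g' - (b : K) * h C) =
            g + g' - ((a + b : chart S.W w) : K) * h C := by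
          push_cast
          ring
        rwa [e] at h1
      smul_mem' := by
        rintro c b ⟨g, hg⟩
        refine ⟨c * g, fun C hC => ?_⟩
        have h1 := mul_mem_secAt (hC.chart_mem c.2) (hg C hC)
        have e : (c : K) * (g - (b : K) * h C) =
            c * g - ((c • b : chart S.W w) : K) * h C := by
          rw [smul_eq_mul]
          push_cast
          ring
        rwa [e] at h1 }
  have hJ : J = ⊤ := by
    by_contra hne
    obtain ⟨m, hm, hJm⟩ := Ideal.exists_le_maximal J hne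
    let x : Pt S.W := ⟨loc _ m hm.isPrime, w, hw, h0, m, hm, rfl⟩
    have hx : x.In w := ⟨h0, fun a ha => le_loc _ m hm.isPrime (div_mem_chart ha)⟩
    have hv : ∀ b : chart S.W w, b ∈ m → x.Van b := fun b hb =>
      ⟨le_loc _ m hm.isPrime b.2, or_iff_not_imp_left.2 fun h1 h2 =>
        (inv_mem_loc_iff hm.isPrime h1).1 h2 hb⟩
    obtain ⟨g, hg⟩ := hh.2 x
    obtain ⟨b, hb, h1, h2⟩ := exists_mul S hh.1 hw hx hg
    have h3 : (⟨b, hb⟩ : chart S.W w) ∈ J := ⟨b * g, fun C hC => by
      have h4 := h2 C hC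
      rwa [mul_sub] at h4⟩
    exact h1 (hv _ (hJm h3))
  have h1 : (1 : chart S.W w) ∈ J := hJ ▸ Submodule.mem_top
  obtain ⟨g, hg⟩ := h1
  refine ⟨g, fun C hC => ?_⟩
  simpa using hg C hC

theorem pple (h1le : H1LE) : PPLE := by
  intro K _ _ S D V _ _ _ φ hφ
  let b := Module.finBasis ℂ V
  choose g hg using fun j i => lift K S D (φ (b j)) (hφ (b j)) (S.x i) (S.x_mem i) (S.x_ne i)
  let ψ : V →ₗ[ℂ] (Fin 3 → K) := b.constr ℂ g
  have hψ : ∀ v i C, C.In (S.x i) → ψ v i - φ v C ∈ secAt C D := by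
    intro v i C hC
    let l : V →ₗ[ℂ] K := (LinearMap.proj i).comp ψ - (LinearMap.proj C).comp φ
    have h1 : (⊤ : Submodule ℂ V) ≤ (secAt C D).comap l := by
      rw [← b.span_eq, Submodule.span_le]
      rintro _ ⟨j, rfl⟩
      change ψ (b j) i - φ (b j) C ∈ secAt C D
      rw [Module.Basis.constr_basis]
      exact hg j i C hC
    exact h1 (Submodule.mem_top (x := v))
  have hZ : ∀ v, ψ v ∈ S.Z1 D := by
    intro v i j
    refine mem_secOn_iff.2 fun C hC => ?_
    have h1 := sub_mem (hψ v i C hC.1) (hψ v j C hC.2)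
    rwa [sub_sub_sub_cancel_right] at h1
  have hle : (S.B1 D).comap ψ ≤ (S.Glob D).comap φ := by
    rintro v ⟨f, hf⟩
    refine ⟨f, fun C => ?_⟩
    obtain ⟨i, hi⟩ := S.all.crv_cover C
    have h1 := sub_mem (hψ v i C hi) (mem_secOn_iff.1 (hf i) C hi)
    rwa [sub_sub_sub_cancel_left] at h1
  have h2 := h1le K S D V ψ hZ
  have h3 := Submodule.finrank_mono hle
  omega

end Vale.Agent.P297Z.Sf
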