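import Vale.Agent.P297Y.Alg.Sk
import Vale.Agent.P025.R2.H492.Line

/-! Descent of the property of killing the principal divisors. -/

set_option linter.all false

namespace Vale.Agent.P297Z.Sf

open Vale.Agent.P019P P025H492 IntermediateField

namespace Prn

/-- The homomorphism on divisors given by a map on points. -/
noncomputable def ev {X Q : Type} [AddCommGroup Q] (c : X → Q) : (X →₀ ℤ) →+ Q :=
  Finsupp.liftAddHom fun w => zmultiplesHom Q (c w)

section

variable {X Y Q : Type} [AddCommGroup Q]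

theorem ev_apply (c : X → Q) (D : X →₀ ℤ) : ev c D = D.sum fun w n => n • c w := rfl

theorem ev_single (c : X → Q) (w : X) (n : ℤ) : ev c (Finsupp.single w n) = n • c w := by
  simp [ev]

theorem ev_map (c : Y → Q) (s : X → Y) (D : X →₀ ℤ) :
    ev c (Finsupp.mapDomain s D) = ev (fun w => c (s w)) D := by
  induction D using Finsupp.induction_linear with
  | zero => simp
  | add D E h1 h2 => rw [Finsupp.mapDomain_add, map_add, map_add, h1, h2]
  | single p n => rw [Finsupp.mapDomain_single, ev_single, ev_single]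

theorem ev_sum {ι : Type} [Fintype ι] (c : ι → X → Q) (D : X →₀ ℤ) :
    ev (fun w => ∑ i, c i w) D = ∑ i, ev (c i) D := by
  induction D using Finsupp.induction_linear with
  | zero => simp
  | add D E h1 h2 => simp only [map_add, h1, h2, Finset.sum_add_distrib]
  | single p n => simp only [ev_single, Finset.smul_sum]

theorem ev_congr {c c' : X → Q} {D : X →₀ ℤ} (h : ∀ w, D w ≠ 0 → c w = c' w) :
    ev c D = ev c' D :=
  Finsupp.sum_congr fun w hw => congrArg (D w • ·) (h w (Finsupp.mem_support_iff.1 hw))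

theorem ev_const (a : Q) (D : X →₀ ℤ) : ev (fun _ => a) D = dg D • a := by
  induction D using Finsupp.induction_linear with
  | zero => simp
  | add D E h1 h2 => rw [map_add, map_add, h1, h2, add_smul]
  | single p n => rw [ev_single, dg_sgl]

theorem hom_eq (φ : (X →₀ ℤ) →+ Q) (D : X →₀ ℤ) :
    φ D = ev (fun w => φ (Finsupp.single w 1)) D := by
  induction D using Finsupp.induction_linear with
  | zero => simp
  | add D E h1 h2 => rw [map_add, map_add, h1, h2]
  | single p n => rw [ev_single, ← map_zsmul]; simp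

end

/-- On a rational function field all places are equivalent. -/
theorem line_prn {R : Type} [Field R] [Algebra ℂ R] [CFF ℂ R] {x : R}
    (hx : ∀ a : ℂ, x ≠ algebraMap ℂ R a) {Q : Plk ℂ R} (h1 : ord Q x = -1)
    (h2 : ∀ Q', ord Q' x < 0 → Q' = Q) (s s' : Plk ℂ R) :
    Finsupp.single s (1 : ℤ) - Finsupp.single s' 1 ∈ prn ℂ R := by
  classical
  have key : ∀ s : Plk ℂ R, Finsupp.single s (1 : ℤ) - Finsupp.single Q 1 ∈ prn ℂ R := fun s => by
    by_cases hs : s = Q
    · rw [hs, sub_self]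
      exact zero_mem _
    have h3 := ord_sub_vl_pos hx (P := s) (not_lt.1 fun h => hs (h2 s h))
    have h0 := sub_ne_zero.2 (hx (vl s x))
    have h4 : ∀ (P : Plk ℂ R) (n : ℤ), n ≤ 0 → n ≤ ord P x →
        n ≤ ord P (x - algebraMap ℂ R (vl s x)) := fun P n a b =>
      (mem_Mge.1 (sub_mem (mem_Mge.2 (Or.inr b))
        (mem_Mge.2 (Or.inr (by rw [ord_const]; exact a))))).resolve_left h0
    refine ⟨_, h0, eq_of_le_of_dg_le (fun P => ?_) (by rw [dg_dv, map_sub, dg_sgl, dg_sgl]; rfl)⟩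
    rw [dv_apply, Finsupp.sub_apply, Finsupp.single_apply, Finsupp.single_apply]
    by_cases a1 : s = P
    · subst a1
      rw [if_pos rfl, if_neg (Ne.symm hs)]
      omega
    rw [if_neg a1]
    by_cases a2 : Q = P
    · subst a2
      rw [if_pos rfl]
      exact h4 _ _ (by omega) (by omega)
    · rw [if_neg a2]
      exact h4 _ _ (by omega) (not_lt.1 fun h => a2 (h2 P (by omega)).symm)
  have := sub_mem (key s) (key s')
  rwa [sub_sub_sub_cancel_right] at this

section two

variable {k E : Type} [Field k] [Field E] [Algebra ℂ k] [Algebra ℂ E] [Algebra k E]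
  [IsScalarTower ℂ k E] [CFF ℂ k] [CFF ℂ E] [FiniteDimensional k E]

theorem conj_prn (σ : E ≃ₐ[k] E) {D : Plk ℂ E →₀ ℤ} (h : D ∈ prn ℂ E) :
    Finsupp.mapDomain (conj ℂ σ) D ∈ prn ℂ E := by
  obtain ⟨z, hz, rfl⟩ := h
  refine ⟨σ z, (map_ne_zero _).2 hz, Finsupp.ext fun P => ?_⟩
  rw [← conj_conj_inv σ P, Finsupp.mapDomain_apply
    (Function.LeftInverse.injective (conj_inv_conj σ)), dv_apply, dv_apply, ord_conj]

/-- The statement up to the degree. -/
theorem smul_ev {Q : Type} [AddCommGroup Q] {c : Plk ℂ E → Q} {b : Plk ℂ k → Q}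
    {T : Finset (Plk ℂ k)} (hc : ∀ D ∈ prn ℂ E, ev c D = 0)
    (hb : ∀ w, down k w ∉ T → c w = b (down k w)) {D : Plk ℂ k →₀ ℤ} (hD : D ∈ prn ℂ k)
    (hT : ∀ p ∈ T, D p = 0) : Module.finrank k E • ev b D = 0 := by
  rw [← map_nsmul, ← push_pull (L := E), ← hc _ (pull_prn hD)]
  exact (ev_map b _ _).trans (ev_congr fun w hw =>
    (hb w fun h => hw (by rw [pull_apply, hT _ h, mul_zero])).symm)

end two

section gal

variable {R k M : Type} [Field R] [Field k] [Field M] [Algebra ℂ R] [Algebra ℂ k] [Algebra ℂ M]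
  [Algebra R k] [Algebra R M] [Algebra k M] [IsScalarTower ℂ R k] [IsScalarTower ℂ R M]
  [IsScalarTower ℂ k M] [IsScalarTower R k M] [CFF ℂ R] [CFF ℂ k] [CFF ℂ M]
  [FiniteDimensional R k] [FiniteDimensional R M] [FiniteDimensional k M] [IsGalois R M]

variable (R k M) in
/-- The conjugates of a place give the fibre. -/
theorem exists_reps : ∃ (ι : Type) (_ : Fintype ι) (σ : ι → M ≃ₐ[R] M), ∀ P : Plk ℂ M,
    ∑ i, Finsupp.single (down k (conj ℂ (σ i) P)) (1 : ℤ) =
      pull k (Finsupp.single (down R P) 1) := by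
  classical
  let ρ : (M ≃ₐ[k] M) →* (M ≃ₐ[R] M) :=
    { toFun := AlgEquiv.restrictScalars R, map_one' := rfl, map_mul' := fun _ _ => rfl }
  have hρ : Function.Injective ρ := AlgEquiv.restrictScalars_injective R
  have : Fintype ((M ≃ₐ[R] M) ⧸ ρ.range) := Fintype.ofFinite _
  have hb : Function.Bijective fun x : ((M ≃ₐ[R] M) ⧸ ρ.range) × (M ≃ₐ[k] M) =>
      x.1.out * ρ x.2 := by
    have h1 : ∀ (q : (M ≃ₐ[R] M) ⧸ ρ.range) τ, (QuotientGroup.mk (q.out * ρ τ) : _ ⧸ ρ.range) = q :=
      fun q τ => by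
        rw [QuotientGroup.mk_mul_of_mem _ (MonoidHom.mem_range.2 ⟨τ, rfl⟩), QuotientGroup.out_eq']
    refine ⟨fun x y h => ?_, fun σ => ?_⟩
    · have h2 : x.1 = y.1 := by rw [← h1 x.1 x.2, ← h1 y.1 y.2]; exact congrArg _ h
      refine Prod.ext h2 (hρ (mul_left_cancel (a := y.1.out) ?_))
      rw [← h2]
      exact h.trans (by rw [h2])
    · obtain ⟨τ, hτ⟩ : (QuotientGroup.mk σ : _ ⧸ ρ.range).out⁻¹ * σ ∈ ρ.range :=
        QuotientGroup.eq.1 (QuotientGroup.out_eq' _)
      exact ⟨(QuotientGroup.mk σ, τ), by simp [hτ]⟩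
  have hG : IsGalois k M := IsGalois.tower_top_of_isGalois R k M
  refine ⟨(M ≃ₐ[R] M) ⧸ ρ.range, this, fun q => q.out⁻¹, fun P => Finsupp.ext fun p => ?_⟩
  have h1 := sum_conj_down (K := R) (L := k) P fun p' => if p' = p then (1 : ℂ) else 0
  rw [← hb.sum_comp, Fintype.sum_prod_type] at h1
  have h2 : ∀ (σ : M ≃ₐ[R] M) τ, down k (conj ℂ (σ * ρ τ)⁻¹ P) = down k (conj ℂ σ⁻¹ P) :=
    fun σ τ => by
      rw [mul_inv_rev, P025H492.conj_mul, ← map_inv]
      exact down_conj τ⁻¹ _
  simp only [h2, Finset.sum_const, Finset.card_univ, ← Nat.card_eq_fintype_card,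
    IsGalois.card_aut_eq_finrank, nsmul_eq_mul, ← Finset.mul_sum] at h1
  have h3 := mul_left_cancel₀ (Nat.cast_ne_zero.2 Module.finrank_pos.ne') h1
  simp only [mul_ite, mul_one, mul_zero, Finset.sum_ite_eq', mem_over] at h3
  rw [Finsupp.finset_sum_apply, pull_apply]
  simp only [Finsupp.single_apply, mul_ite, mul_one, mul_zero, eq_comm (a := down R P)]
  exact_mod_cast h3

theorem aux (hC : CONST) {E : Type} [Field E] [Algebra ℂ E] [Algebra k E] [Algebra E M]
    [IsScalarTower ℂ k E] [IsScalarTower ℂ E M] [IsScalarTower k E M] [CFF ℂ E]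
    [FiniteDimensional k E] [FiniteDimensional E M]
    (hR : ∀ s s' : Plk ℂ R, Finsupp.single s (1 : ℤ) - Finsupp.single s' 1 ∈ prn ℂ R)
    {Q : Type} [AddCommGroup Q] {c : Plk ℂ E → Q} {b : Plk ℂ k → Q} {T : Finset (Plk ℂ k)}
    (hc : ∀ D ∈ prn ℂ E, ev c D = 0) (hb : ∀ w, down k w ∉ T → c w = b (down k w))
    {D : Plk ℂ R →₀ ℤ} (hD : dg D = 0) (hT : ∀ p ∈ T, pull k D p = 0) : ev b (pull k D) = 0 := by
  classical
  obtain ⟨ι, _, σ, hσ⟩ := exists_reps R k M
  set ψ : Plk ℂ M → Q := fun P => ∑ i, c (down E (conj ℂ (σ i) P)) with hψ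
  have h1 : ∀ P, down R P ∉ T.image (down R) →
      ψ P = ev b (pull k (Finsupp.single (down R P) 1)) := fun P hP => by
    rw [← hσ, map_sum]
    refine Finset.sum_congr rfl fun i _ => ?_
    rw [ev_single, one_smul, hb _ fun h => hP (Finset.mem_image.2 ⟨_, h, by
      rw [down_down (K := k), down_down, down_conj]⟩), down_down]
  have h2 := hC M Q ψ (fun D hD => by
    rw [← ev_apply, ev_sum]
    exact Finset.sum_eq_zero fun i _ => by
      rw [← ev_map (fun P => c (down E P)), ← ev_map c]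
      exact hc _ (push_prn (conj_prn _ hD))) (Module.finrank k E)
    ((T.image (down R)).biUnion fun s => (over_finite (L := M) s).toFinset)
    Module.finrank_pos.ne' fun P hP P' hP' => by
      have a : ∀ P : Plk ℂ M, P ∉ (T.image (down R)).biUnion
          (fun s => (over_finite (L := M) s).toFinset) → down R P ∉ T.image (down R) :=
        fun P h e => h (Finset.mem_biUnion.2 ⟨_, e, mem_over.2 rfl⟩)
      rw [h1 P (a P hP), h1 P' (a P' hP'), ← map_sub, ← map_sub]
      refine smul_ev hc hb (pull_prn (hR _ _)) fun p hp => ?_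
      have e := Finset.mem_image_of_mem (down R) hp
      rw [pull_apply, Finsupp.sub_apply, Finsupp.single_eq_of_ne (ne_of_mem_of_not_mem e (a P hP)),
        Finsupp.single_eq_of_ne (ne_of_mem_of_not_mem e (a P' hP')), sub_zero, mul_zero]
  obtain ⟨P₀⟩ := nonempty_Plk ℂ M
  refine (hom_eq ((ev b).comp (pull k)) D).trans ((ev_congr (c' := fun _ => ψ P₀)
    fun s hs => ?_).trans (by rw [ev_const, hD, zero_smul]))
  obtain ⟨P, rfl⟩ := exists_over (L := M) s
  rw [h2 P₀ P, h1 P fun h => ?_]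
  · rfl
  obtain ⟨p, hp, e⟩ := Finset.mem_image.1 h
  have h3 := hT p hp
  rw [pull_apply, e] at h3
  exact mul_ne_zero (ram_ne_zero p) hs h3

end gal

theorem aux' (hC : CONST) {R k E : Type} [Field R] [Field k] [Field E] [Algebra ℂ R] [Algebra ℂ k]
    [Algebra ℂ E] [Algebra R k] [Algebra R E] [Algebra k E] [IsScalarTower ℂ R k]
    [IsScalarTower ℂ R E] [IsScalarTower ℂ k E] [IsScalarTower R k E] [CFF ℂ R] [CFF ℂ k] [CFF ℂ E]
    [FiniteDimensional R k] [FiniteDimensional k E]
    (hR : ∀ s s' : Plk ℂ R, Finsupp.single s (1 : ℤ) - Finsupp.single s' 1 ∈ prn ℂ R)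
    {Q : Type} [AddCommGroup Q] {c : Plk ℂ E → Q} {b : Plk ℂ k → Q} {T : Finset (Plk ℂ k)}
    (hc : ∀ D ∈ prn ℂ E, ev c D = 0) (hb : ∀ w, down k w ∉ T → c w = b (down k w))
    {D : Plk ℂ R →₀ ℤ} (hD : dg D = 0) (hT : ∀ p ∈ T, pull k D p = 0) : ev b (pull k D) = 0 := by
  have : FiniteDimensional R E := Module.Finite.trans k E
  let Ω := AlgebraicClosure E
  let M := normalClosure R E Ω
  have : CharZero R := charZero_of_injective_algebraMap (algebraMap ℂ R).injective
  have : FiniteDimensional R M := inferInstance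
  have : FiniteDimensional E M := Module.Finite.of_restrictScalars_finite R E M
  have : IsScalarTower ℂ E M := IsScalarTower.of_algebraMap_eq fun a => by
    apply Subtype.ext
    show algebraMap ℂ Ω a = algebraMap E Ω (algebraMap ℂ E a)
    rw [← IsScalarTower.algebraMap_apply ℂ E Ω]
  have : CFF ℂ M := cff_of_finite (K := E)
  have : IsGalois R M := ⟨⟩
  let _ : Algebra k M := ((algebraMap E M).comp (algebraMap k E)).toAlgebra
  have : IsScalarTower k E M := IsScalarTower.of_algebraMap_eq fun _ => rfl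
  have : IsScalarTower ℂ k M := IsScalarTower.of_algebraMap_eq fun a => by
    rw [IsScalarTower.algebraMap_apply k E M, ← IsScalarTower.algebraMap_apply ℂ k E,
      ← IsScalarTower.algebraMap_apply ℂ E M]
  have : IsScalarTower R k M := IsScalarTower.of_algebraMap_eq fun a => by
    rw [IsScalarTower.algebraMap_apply k E M, ← IsScalarTower.algebraMap_apply R k E,
      ← IsScalarTower.algebraMap_apply R E M]
  have : FiniteDimensional k M := Module.Finite.trans E M
  exact aux (M := M) hC hR hc hb hD hT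

end Prn

open Prn in
theorem prn_of : CONST → PRN := by
  intro hC k E _ _ _ _ _ _ _ _ _ Q _ c b T hc hb D hD hT
  obtain ⟨f, -, rfl⟩ := hD
  by_cases hf : ∃ a : ℂ, f = algebraMap ℂ k a
  · obtain ⟨a, rfl⟩ := hf
    rw [dv_const, Finsupp.sum_zero_index]
  push Not at hf
  have := cff_adjoin hf
  have := (finite_of_notMem hf).2
  obtain ⟨S, h1, h2⟩ := line_inf hf
  have e : dv ℂ f = pull k (dv ℂ (AdjoinSimple.gen ℂ f)) := dv_algebraMap (AdjoinSimple.gen ℂ f)
  rw [e] at hT ⊢
  exact aux' hC (line_prn (gen_nc hf) h1 h2) hc hb (dg_dv _) hT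

end Vale.Agent.P297Z.Sf
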