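import Vale.Agent.P297Y.Alg.Sk
import Vale.Agent.P297Y.An.Par

/-! P297, positive irregularity: the singular points of a foliation and the theorem of Bertini. -/

set_option linter.all false

open IsLocalRing

namespace Vale.Agent.P297Z.Sf

open Vale.Agent.P019P (CFF Plk LL Mge gen dg dv prn)
open P025H492 (down wdv)

variable {K : Type} [Field K] [Algebra ℂ K] {S : Surf K}

namespace SingA

/-- a derivation maps the algebra generated by `G` to a module which contains the images of the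
generators -/
theorem der_adjoin (X : Derivation ℂ K K) (G : Set K) (R : Subalgebra ℂ K) (N : Submodule ℂ K)
    (hR : Algebra.adjoin ℂ G ≤ R) (hN : ∀ r ∈ R, ∀ n ∈ N, r * n ∈ N) (hG : ∀ g ∈ G, X g ∈ N) :
    ∀ a ∈ Algebra.adjoin ℂ G, X a ∈ N := by
  intro a ha
  induction ha using Algebra.adjoin_induction with
  | mem x hx => exact hG x hx
  | algebraMap c => rw [X.map_algebraMap]; exact zero_mem _
  | add x y _ _ hx hy => rw [map_add]; exact add_mem hx hy
  | mul x y h1 h2 hx hy =>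
    rw [X.leibniz]
    exact add_mem (hN _ (hR h1) _ hy) (hN _ (hR h2) _ hx)

/-- along each curve of the chart one of the generators gives the order of the vector field -/
theorem exists_gen (hd : S.Dr) {X : Derivation ℂ K K} (hX : X ≠ 0) {w : K} (hw : w ∈ S.W)
    {G : Set K} (hG : Algebra.adjoin ℂ G = chart S.W w) {C : Crv S.W} (hC : C.In w) :
    ∃ g ∈ G, X g ≠ 0 ∧ C.ord (X g) + S.vd X C ≤ 0 := by
  by_contra hcon
  push Not at hcon
  let N : Submodule ℂ K := secAt C (S.vd X - C.cl)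
  have mN : ∀ f, f ∈ N ↔ f = 0 ∨ 0 < C.ord f + S.vd X C := fun f => by
    rw [mem_secAt, Finsupp.sub_apply, Finsupp.single_eq_same]
    exact or_congr_right (by omega)
  have hN : ∀ r ∈ C.alg, ∀ n ∈ N, r * n ∈ N := fun r hr n hn => by
    have h1 : r ∈ secAt C 0 := mem_secAt.2 (Or.inr (by
      simpa using Pl.ord_nonneg_of_mem C.pl hr))
    have h2 := mul_mem_secOn h1 hn
    rwa [zero_add] at h2
  have hR : chart S.W w ≤ C.alg := fun f hf => hC.chart_mem hf
  have h1 : ∀ a ∈ chart S.W w, X a ∈ N := by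
    rw [← hG] at hR ⊢
    refine der_adjoin X G C.alg N hR hN fun g hg => (mN _).2 ?_
    by_cases h0 : X g = 0
    · exact Or.inl h0
    · exact Or.inr (hcon g hg h0)
  obtain ⟨p, hp, -, -, e, -⟩ := S.all.crv_chart C w hw hC
  obtain ⟨⟨b, hb, b0, b1⟩, -⟩ := hd.vd_least X hX C
  obtain ⟨a, c, hc, e'⟩ := mem_loc.1 ((e b).1 hb)
  have c0 := ne_zero_of_notMem hc
  have h2 : X b = (c : K)⁻¹ * (X a - b * X c) := by
    rw [← e', X.leibniz, smul_eq_mul, smul_eq_mul]
    field_simp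
    ring
  have h3 : X b ∈ N := h2 ▸ hN _ ((e _).2 (inv_mem_loc hp hc)) _
    (sub_mem (h1 _ a.2) (hN _ hb _ (h1 _ c.2)))
  have h4 := ((mN _).1 h3).resolve_left b0
  unfold Crv.ord at h4
  omega

/-- a nonzero function which vanishes at a point vanishes on a curve through the point -/
theorem exists_crv {x : Pt S.W} {f : K} (h0 : f ≠ 0) (hf : x.Van f) :
    ∃ C, x.On C ∧ 0 < C.ord f := by
  by_contra hcon
  push Not at hcon
  refine hf.2.resolve_left h0 ((S.all.normal x _).1 (Or.inr fun C hC => ?_))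
  have := hcon C hC
  unfold Crv.ord at *
  rw [Pl.ord_inv]
  simpa using this

/-- a derivation of a local ring maps the square of the maximal ideal to the maximal ideal -/
theorem van_der {x : Pt S.W} {e : Derivation ℂ K K} (he : ∀ a ∈ x.ring, e a ∈ x.ring)
    {a : x.ring} (ha : a ∈ maximalIdeal x.ring ^ 2) : x.Van (e a) := by
  rw [pow_two] at ha
  refine Submodule.mul_induction_on ha (fun b hb c hc => ?_) fun b c hb hc => ?_
  · rw [MulMemClass.coe_mul, e.leibniz, smul_eq_mul, smul_eq_mul]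
    exact (((x.mem_max b).1 hb).mul_right (he _ c.2)).add
      (((x.mem_max c).1 hc).mul_right (he _ b.2))
  · rw [AddMemClass.coe_add, map_add]
    exact hb.add hc

/-- the value of the two-form on the vector fields dual to regular parameters generates the dual of
the canonical sheaf -/
theorem ord_wedge {C : Crv S.W} {s t : K} (hs : s ∈ C.pl.ring) (ht : t ∈ C.pl.ring)
    {d₁ d₂ : Derivation ℂ K K} (h₁ : RegDer C.pl d₁) (h₂ : RegDer C.pl d₂)
    (hd : ∀ (δ : Derivation ℂ K K) (a : K), δ a = δ s * d₁ a + δ t * d₂ a) :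
    wedge (S.x 1 / S.x 0) (S.x 2 / S.x 0) d₁ d₂ ≠ 0 ∧
      C.ord (wedge (S.x 1 / S.x 0) (S.x 2 / S.x 0) d₁ d₂) = S.kap C := by
  obtain ⟨⟨δ₁, δ₂, r₁, r₂, w0, w1⟩, hl⟩ := S.all.least _ _ S.indep C
  have e : wedge (S.x 1 / S.x 0) (S.x 2 / S.x 0) δ₁ δ₂ = (δ₁ s * δ₂ t - δ₁ t * δ₂ s) *
      wedge (S.x 1 / S.x 0) (S.x 2 / S.x 0) d₁ d₂ := by
    unfold wedge
    rw [hd δ₁ (S.x 1 / S.x 0), hd δ₁ (S.x 2 / S.x 0), hd δ₂ (S.x 1 / S.x 0),
      hd δ₂ (S.x 2 / S.x 0)]
    ring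
  rw [e] at w0 w1
  have j0 := right_ne_zero_of_mul w0
  refine ⟨j0, le_antisymm ?_ (hl ⟨d₁, d₂, h₁, h₂, j0, rfl⟩)⟩
  have h1 := Pl.ord_nonneg_of_mem C.pl
    (sub_mem (mul_mem (r₁ _ hs) (r₂ _ ht)) (mul_mem (r₁ _ ht) (r₂ _ hs)))
  rw [Pl.ord_mul _ (left_ne_zero_of_mul w0) j0] at w1
  unfold Crv.ord Surf.kap
  omega

end SingA

theorem sing : DER → SING := by
  intro der K _ _ S X hX
  have h := S.all
  have hG : ∀ i, ∃ G : Finset K, Algebra.adjoin ℂ (G : Set K) = chart S.W (S.x i) := fun i =>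
    (Subalgebra.fg_iff_finiteType _).2 (h.ft (S.x i))
  choose G hG using hG
  let A : Set (Crv S.W) := (S.vd X).support ∪
    ⋃ i, ⋃ g ∈ (G i : Set K), Function.support fun C : Crv S.W => C.ord (X g)
  have hA : A.Finite := (Finset.finite_toSet _).union
    (Set.finite_iUnion fun i => (G i).finite_toSet.biUnion fun g _ => h.fin_div (X g))
  have hB : (⋃ C ∈ A, ⋃ C' ∈ A \ {C}, {x : Pt S.W | x.On C ∧ x.On C'}).Finite :=
    hA.biUnion fun C _ => hA.diff.biUnion fun C' hC' => h.fin_meet C C' fun e => hC'.2 e.symm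
  refine hB.subset ?_
  rintro x ⟨t, ⟨t0, ht⟩, hv⟩
  obtain ⟨i, hi⟩ := h.pt_cover x
  have key : ∀ C, x.On C → ∃ C' ∈ A, C' ≠ C ∧ x.On C' := by
    intro C hC
    obtain ⟨g, hg, g0, g1⟩ := SingA.exists_gen (der K S) hX (S.x_mem i) (hG i) (hC.crv_in hi)
    have g2 : g ∈ x.ring := hi.chart_le (hG i ▸ Algebra.subset_adjoin hg)
    obtain ⟨C', hC', h1⟩ := SingA.exists_crv (mul_ne_zero t0 g0) (hv g g2)
    have h2 := ht C' hC'
    unfold Crv.ord at h1 h2 g1
    rw [Pl.ord_mul _ t0 g0] at h1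
    rw [Finsupp.neg_apply] at h2
    refine ⟨C', ?_, ?_, hC'⟩
    · by_contra h3
      have h4 : S.vd X C' = 0 := by
        by_contra h5
        exact h3 (Or.inl (Finsupp.mem_support_iff.2 h5))
      have h5 : C'.pl.ord (X g) = 0 := by
        by_contra h5
        exact h3 (Or.inr (Set.mem_iUnion.2 ⟨i, Set.mem_biUnion hg h5⟩))
      omega
    · rintro rfl
      omega
  have hex : ∃ C, x.On C := by
    by_contra hn
    have all : ∀ f, f ∈ x.ring := fun f =>
      (h.normal x f).1 (Or.inr fun C hC => absurd ⟨C, hC⟩ hn)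
    refine hX (Derivation.ext fun b => ?_)
    by_contra hb
    exact (hv b (all b)).2.resolve_left (mul_ne_zero t0 hb) (all _)
  obtain ⟨C₀, h₀⟩ := hex
  obtain ⟨C₁, a₁, -, h₁⟩ := key C₀ h₀
  obtain ⟨C₂, a₂, ne, h₂⟩ := key C₁ h₁
  exact Set.mem_biUnion a₁ (Set.mem_biUnion (show C₂ ∈ A \ {C₁} from ⟨a₂, ne⟩) ⟨h₁, h₂⟩)

theorem bert : DER → PENB → PEND → SING → BERT := by
  intro der penb pend sing K _ _ S P
  have h := S.all
  have hb := penb K S P
  have hp := pend K S P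
  obtain ⟨u, hu, -⟩ := P.cff.ex
  have nc : ∀ c : ℂ, u ≠ algebraMap ℂ P.k c := fun c e => hu (e ▸ isAlgebraic_algebraMap c)
  have nc' : ∀ c : ℂ, (u : K) ≠ algebraMap ℂ K c := fun c e => nc c (Subtype.ext e)
  have one : ((1 : P.k) : K) ≠ 0 := one_ne_zero
  obtain ⟨X, hX⟩ := (der K S).ex ((1 : P.k) : K) u
  obtain ⟨X0, -⟩ := (der K S).ne _ _ X one nc' hX
  have hv := (der K S).vd_eq _ _ X one nc' hX
  have hT : ((dv ℂ u).support ∪ (⋃ C ∈ ((S.fd ((1 : P.k) : K) u).support : Set (Crv S.W)),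
      {p | P.Over C p}) ∪ P.π '' {x : Pt S.W | ∃ t, GenAt x (- S.vd X) t ∧
        ∀ b ∈ x.ring, x.Van (t * X b)} : Set (Plk ℂ P.k)).Finite :=
    ((Finset.finite_toSet _).union ((Finset.finite_toSet _).biUnion fun C _ =>
      Set.Subsingleton.finite fun p a q b => hb.uniq C p q a b)).union ((sing K S X X0).image _)
  refine ⟨hT.toFinset, fun x hx => ?_⟩
  rw [Set.Finite.mem_toFinset] at hx
  obtain ⟨π0, π1⟩ : P.unif (P.π x) ≠ 0 ∧ P019P.ord (P.π x) (P.unif (P.π x)) = 1 :=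
    (P019P.exists_unif (P.π x)).choose_spec
  generalize P.unif (P.π x) = π at *
  have hπ : (π : K) ∈ x.ring := (P.isPi x π).1 (by omega)
  refine ⟨⟨π, hπ⟩, rfl, fun hm => hx (Or.inr ⟨x, ?_, rfl⟩)⟩
  have u0 : P019P.ord (P.π x) u = 0 := by
    by_contra h1
    exact hx (Or.inl (Or.inl (Finsupp.mem_support_iff.2 (by rwa [P019P.dv_apply]))))
  obtain ⟨c, hc⟩ := h.val x u ((P.isPi x u).1 u0.ge)
  have c0 : u - algebraMap ℂ P.k c ≠ 0 := sub_ne_zero.2 (nc c)
  have c1 : 0 < P019P.ord (P.π x) (u - algebraMap ℂ P.k c) := by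
    by_contra h1
    refine hc.2.resolve_left (sub_ne_zero.2 (nc' c)) ?_
    exact (P.isPi x (u - algebraMap ℂ P.k c)⁻¹).1 (by rw [P019P.ord_inv]; omega)
  have c2 : (((u - algebraMap ℂ P.k c) * π⁻¹ : P.k) : K) ∈ x.ring := (P.isPi x _).1 (by
    rw [P019P.ord_mul _ c0 (inv_ne_zero π0), P019P.ord_inv]; omega)
  have c3 : ∀ e : Derivation ℂ K K, (∀ a ∈ x.ring, e a ∈ x.ring) → x.Van (e u) := fun e he => by
    have h1 := SingA.van_der he (Ideal.mul_mem_left _ ⟨_, c2⟩ hm)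
    have h2 : (((u - algebraMap ℂ P.k c) * π⁻¹ : P.k) : K) * π = u - algebraMap ℂ K c :=
      congrArg Subtype.val (inv_mul_cancel_right₀ π0 (u - algebraMap ℂ P.k c))
    change x.Van (e ((((u - algebraMap ℂ P.k c) * π⁻¹ : P.k) : K) * π)) at h1
    rwa [h2, map_sub, e.map_algebraMap, sub_zero] at h1
  obtain ⟨i, hi⟩ := h.pt_cover x
  obtain ⟨-, -, -, -, s, t, -, -, hm'⟩ := h.gens x _ (S.x_mem i) hi
  obtain ⟨d₁, d₂, r, rC, -, -, -, -, hd⟩ := par K S h x s t hm'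
  have hJ := fun C (hC : x.On C) =>
    SingA.ord_wedge (hC _ s.2) (hC _ t.2) (rC C hC).1 (rC C hC).2 hd
  obtain ⟨C₀, h₀, -⟩ := hb.ex_over x
  refine ⟨_, ⟨(hJ C₀ h₀).1, fun C hC => ?_⟩, fun b hb' => ?_⟩
  · have h1 : S.fd ((1 : P.k) : K) u C = 0 := by
      rcases hb.dich C with h2 | ⟨p, h2⟩
      · exact hp.fd_hor 1 u one_ne_zero nc C h2
      · by_contra h3
        refine hx (Or.inl (Or.inr (Set.mem_biUnion (Finsupp.mem_support_iff.2 h3) ?_)))
        rw [hb.pi_eq C p x h2 hC]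
        exact h2
    rw [(hJ C hC).2, hv, Finsupp.neg_apply, Finsupp.sub_apply, h1]
    ring
  · rw [mul_comm, ← hX b d₁ d₂]
    refine Pt.Van.mul_left (one_mem _) ?_
    exact ((c3 d₂ fun a ha => (r a ha).2).mul_left (r b hb').1).sub
      ((c3 d₁ fun a ha => (r a ha).1).mul_right (r b hb').2)

end Vale.Agent.P297Z.Sf
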