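import Vale.Agent.P297Y.Alg.Defs

/-! P297, positive irregularity: the statements of the blocks of the algebraic part. -/

set_option linter.all false

open IsLocalRing

namespace Vale.Agent.P297Z.Sf

open Vale.Agent.P019P (CFF Plk LL Mge gen dg dv prn)
open P025H492 (down wdv)

variable {K : Type} [Field K] [Algebra ℂ K]

/-! ### Curves -/

/-- The moving lemma. -/
def MOV : Prop := ∀ (E : Type) [Field E] [Algebra ℂ E] [CFF ℂ E] (T : Finset (Plk ℂ E))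
  (D : Plk ℂ E →₀ ℤ), ∃ D' : Plk ℂ E →₀ ℤ, D - D' ∈ prn ℂ E ∧ ∀ w ∈ T, D' w = 0

/-- The group of the classes of degree zero is divisible. -/
def CONST : Prop := ∀ (E : Type) [Field E] [Algebra ℂ E] [CFF ℂ E] (Q : Type) [AddCommGroup Q]
  (c : Plk ℂ E → Q), (∀ D ∈ prn ℂ E, D.sum (fun w n => n • c w) = 0) →
  ∀ (N : ℕ) (T : Finset (Plk ℂ E)), N ≠ 0 → (∀ w, w ∉ T → ∀ w', w' ∉ T → N • (c w - c w') = 0) →
  ∀ w w', c w = c w'

/-- The fibres of a map from a curve of genus at most one to a curve of positive genus. -/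
def TT : Prop := ∀ (k E : Type) [Field k] [Field E] [Algebra ℂ k] [Algebra ℂ E] [Algebra k E]
  [IsScalarTower ℂ k E] [CFF ℂ k] [CFF ℂ E] [FiniteDimensional k E], gen ℂ E ≤ 1 → 1 ≤ gen ℂ k →
  ∀ w w' : Plk ℂ E, down k w = down k w' →
    (Module.finrank k E).factorial • (Finsupp.single w (1 : ℤ) - Finsupp.single w' 1) ∈ prn ℂ E

/-- Descent of the property of killing the principal divisors. -/
def PRN : Prop := ∀ (k E : Type) [Field k] [Field E] [Algebra ℂ k] [Algebra ℂ E] [Algebra k E]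
  [IsScalarTower ℂ k E] [CFF ℂ k] [CFF ℂ E] [FiniteDimensional k E] (Q : Type) [AddCommGroup Q]
  (c : Plk ℂ E → Q) (b : Plk ℂ k → Q) (T : Finset (Plk ℂ k)),
  (∀ D ∈ prn ℂ E, D.sum (fun w n => n • c w) = 0) → (∀ w, down k w ∉ T → c w = b (down k w)) →
  ∀ D ∈ prn ℂ k, (∀ p ∈ T, D p = 0) → D.sum (fun p n => n • b p) = 0

/-- The criterion of Wronski. -/
def WRON : Prop := ∀ (K : Type) [Field K] [Algebra ℂ K] (k : IntermediateField ℂ K)
  (X : Derivation ℂ K K), (∀ f, X f = 0 ↔ f ∈ k) → ∀ (r : ℕ) (e : Fin r → K),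
  LinearIndependent k e → (Matrix.of fun i j : Fin r => (X : K → K)^[j] (e i)).det ≠ 0

/-! ### Curves on a surface -/

/-- The restriction of divisors to the normalisation of a curve. -/
structure Surf.Cs (S : Surf K) : Prop where
  pt_iff : ∀ (C : Crv S.W) (w : Plk ℂ C.Fn) (x : Pt S.W),
    S.pt C w = x ↔ ∀ f ∈ x.ring, f ∈ C.pl.ring ∧ C.rs f ∈ w.1
  pt_van : ∀ (C : Crv S.W) (w : Plk ℂ C.Fn), ∀ f ∈ (S.pt C w).ring,
    (S.pt C w).Van f ↔ C.rs f ∈ Mge w 1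
  on_iff : ∀ (C : Crv S.W) (x : Pt S.W), x.On C ↔ ∃ w, S.pt C w = x
  fin_pt : ∀ (C : Crv S.W) (x : Pt S.W), {w | S.pt C w = x}.Finite
  rst_apply : ∀ (C : Crv S.W) (D : Div S.W), D C = 0 → ∀ (w : Plk ℂ C.Fn) (t : K),
    GenAt (S.pt C w) (-D) t → S.rst C D w = P019P.ord w (C.rs t)
  rst_add : ∀ (C : Crv S.W) (D D' : Div S.W), D C = 0 → D' C = 0 →
    S.rst C (D + D') = S.rst C D + S.rst C D'
  rst_zsmul : ∀ (C : Crv S.W) (n : ℤ) (D : Div S.W), D C = 0 → S.rst C (n • D) = n • S.rst C D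
  rst_div : ∀ (C : Crv S.W) (f : K), f ≠ 0 → C.ord f = 0 →
    S.rst C (div S.W f) = dv ℂ (C.rs f)
  dg_rst : ∀ (C : Crv S.W) (D : Div S.W), D C = 0 → dg (S.rst C D) = inter D C.cl
  rst_nonneg : ∀ (C : Crv S.W) (D : Div S.W), D C = 0 → ∀ w : Plk ℂ C.Fn,
    (∀ C', (S.pt C w).On C' → 0 ≤ D C') →
      0 ≤ S.rst C D w ∧ (S.rst C D w = 0 ↔ ∀ C', (S.pt C w).On C' → D C' = 0)
  sec : ∀ (C : Crv S.W) (D : Div S.W), D C = 0 → ∀ (w : Plk ℂ C.Fn),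
    ∀ f ∈ stalk (S.pt C w) D, f ∈ C.pl.ring ∧ C.rs f ∈ Mge w (- S.rst C D w)
  sec_glob : ∀ (C : Crv S.W) (D : Div S.W), D C = 0 → ∀ f : K,
    (∀ x : Pt S.W, x.On C → f ∈ stalk x D) → C.rs f ∈ LL ℂ (S.rst C D)
  neg : ∀ (C : Crv S.W) (Y : Div S.W) (h : K), h ≠ 0 → C.ord h + Y C = 0 →
    (∀ x : Pt S.W, x.On C → ∃ g ∈ stalk x Y, g - h ∈ secAt C (Y - C.cl)) → 0 ≤ inter Y C.cl

def CS : Prop := ForAll fun S => S.Cs

/-- The maps that kill the principal cycles. -/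
def KILLP : Prop := ForAll fun S => ∀ (Q : Type) [AddCommGroup Q] (c : Pt S.W → Q),
  RatOK c → S.Kill c

/-- The geometric genus is at most the arithmetic genus. -/
def GLE : Prop := ForAll fun S => ∀ C : Crv S.W, 2 * (gen ℂ C.Fn : ℤ) - 2 ≤ S.ag C.cl

/-- Smooth curves. -/
def SMO : Prop := ForAll fun S => ∀ C : Crv S.W, S.Smooth C → Function.Injective (S.pt C) ∧
  ∀ (w : Plk ℂ C.Fn), ∀ e ∈ w.1, ∃ f ∈ (S.pt C w).ring, C.rs f = e

/-- The adjunction formula. -/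
def GEQ : Prop := ForAll fun S => ∀ C : Crv S.W, S.Smooth C →
  2 * (gen ℂ C.Fn : ℤ) - 2 = S.ag C.cl

/-! ### The first cohomology -/

/-- The bound for the dimension of the first Cech cohomology. -/
def H1LE : Prop := ForAll fun {K} _ _ S => ∀ (D : Div S.W) (V : Type) [AddCommGroup V]
  [Module ℂ V] [FiniteDimensional ℂ V] (φ : V →ₗ[ℂ] (Fin 3 → K)), (∀ v, φ v ∈ S.Z1 D) →
  (Module.finrank ℂ V : ℤ) ≤ Module.finrank ℂ ((S.B1 D).comap φ) + S.h1 D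

/-- Principal parts on an affine chart. -/
def LIFT : Prop := ForAll fun {K} _ _ S => ∀ (D : Div S.W) (h : Crv S.W → K), S.LocSol D h →
  ∀ w ∈ S.W, w ≠ 0 → ∃ g, ∀ C, C.In w → g - h C ∈ secAt C D

/-- The problem of Mittag-Leffler. -/
def PPLE : Prop := ForAll fun {K} _ _ S => ∀ (D : Div S.W) (V : Type) [AddCommGroup V]
  [Module ℂ V] [FiniteDimensional ℂ V] (φ : V →ₗ[ℂ] (Crv S.W → K)), (∀ v, S.LocSol D (φ v)) →
  (Module.finrank ℂ V : ℤ) ≤ Module.finrank ℂ ((S.Glob D).comap φ) + S.h1 D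

/-! ### Vector fields and forms -/

/-- The divisors of vector fields and of forms. -/
structure Surf.Dr (S : Surf K) : Prop where
  ex : ∀ a u : K, ∃ X, S.IsHam a u X
  ne : ∀ (a u : K) (X : Derivation ℂ K K), a ≠ 0 → (∀ c : ℂ, u ≠ algebraMap ℂ K c) →
    S.IsHam a u X → X ≠ 0 ∧ X u = 0
  vd_least : ∀ X : Derivation ℂ K K, X ≠ 0 → ∀ C : Crv S.W,
    IsLeast (Surf.vset X C.pl) (- S.vd X C)
  fd_least : ∀ a u : K, a ≠ 0 → (∀ c : ℂ, u ≠ algebraMap ℂ K c) → ∀ C : Crv S.W,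
    IsLeast (Surf.fset a u C.pl) (S.fd a u C)
  vd_eq : ∀ (a u : K) (X : Derivation ℂ K K), a ≠ 0 → (∀ c : ℂ, u ≠ algebraMap ℂ K c) →
    S.IsHam a u X → S.vd X = S.kap - S.fd a u
  reg : ∀ X : Derivation ℂ K K, X ≠ 0 → ∀ (C : Crv S.W) (t : K), t ≠ 0 → S.vd X C ≤ C.ord t →
    RegDer C.pl (t • X)
  reg_pt : ∀ X : Derivation ℂ K K, X ≠ 0 → ∀ (x : Pt S.W) (t : K), GenAt x (- S.vd X) t →
    ∀ b ∈ x.ring, t * X b ∈ x.ring

def DER : Prop := ForAll fun S => S.Dr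

/-- A foliation has finitely many singular points. -/
def SING : Prop := ForAll fun {K} _ _ S => ∀ X : Derivation ℂ K K, X ≠ 0 →
  {x : Pt S.W | ∃ t, GenAt x (- S.vd X) t ∧ ∀ b ∈ x.ring, x.Van (t * X b)}.Finite

/-! ### Pencils -/

/-- The fibres. -/
structure Pen.Bas {S : Surf K} (P : Pen S) : Prop where
  dich : ∀ C, P.Hor C ∨ ∃ p, P.Over C p
  not_hor : ∀ C p, P.Over C p → ¬ P.Hor C
  uniq : ∀ C p q, P.Over C p → P.Over C q → p = q
  pi_eq : ∀ C p (x : Pt S.W), P.Over C p → x.On C → P.π x = p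
  ord_over : ∀ C p, P.Over C p → ∀ f : P.k, C.ord f = P.fib p C * P019P.ord p f
  ord_hor : ∀ C, P.Hor C → ∀ f : P.k, C.ord f = 0
  fib_pos : ∀ C p, P.Over C p → 0 < P.fib p C
  fib_zero : ∀ C p, ¬ P.Over C p → P.fib p C = 0
  ex_over : ∀ x : Pt S.W, ∃ C, x.On C ∧ P.Over C (P.π x)
  ex_crv : ∀ p, ∃ C, P.Over C p
  ex_hor : ∀ x : Pt S.W, ∃ C, x.On C ∧ P.Hor C
  pull_over : ∀ C p, P.Over C p → ∀ D, P.pull D C = P.fib p C * D p
  pull_hor : ∀ C, P.Hor C → ∀ D, P.pull D C = 0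
  pull_dv : ∀ f : P.k, f ≠ 0 → P.pull (dv ℂ f) = div S.W f
  gen_pull : ∀ (x : Pt S.W) (D : Plk ℂ P.k →₀ ℤ) (f : P.k), f ≠ 0 →
    P019P.ord (P.π x) f = D (P.π x) → GenAt x (- P.pull D) f
  vert : ∀ f : K, (∀ C, P.Hor C → f ∈ C.pl.ring) → f ∈ P.k
  mem_pull : ∀ (D : Plk ℂ P.k →₀ ℤ) (f : K), f ∈ H0 (P.pull D) ↔ ∃ g ∈ LL ℂ D, (g : K) = f
  h0_pull : ∀ D : Plk ℂ P.k →₀ ℤ, h0 (P.pull D) = Module.finrank ℂ (LL ℂ D)

/-- The intersection numbers of the fibres, and the horizontal curves. -/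
structure Pen.Num {S : Surf K} (P : Pen S) : Prop where
  down_eq : ∀ (C : Crv S.W) [Fact (P.Hor C)] (w : Plk ℂ C.Fn), down P.k w = P.π (S.pt C w)
  rst_pull : ∀ (C : Crv S.W) [Fact (P.Hor C)] (D : Plk ℂ P.k →₀ ℤ),
    S.rst C (P.pull D) = P025H492.pull C.Fn D
  deg : ∀ (C : Crv S.W) [Fact (P.Hor C)], inter P.F C.cl = Module.finrank P.k C.Fn
  num : ∀ (D : Plk ℂ P.k →₀ ℤ) (A : Div S.W), inter (P.pull D) A = dg D * inter P.F A
  num_fib : ∀ p (A : Div S.W), inter (P.fib p) A = inter P.F A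
  F_vert : ∀ C, ¬ P.Hor C → inter P.F C.cl = 0
  F_hor : ∀ C, P.Hor C → 0 < inter P.F C.cl
  F_vert' : ∀ A : Div S.W, (∀ C, P.Hor C → A C = 0) → inter P.F A = 0
  F_sq : inter P.F P.F = 0
  F_nef : S.Nef P.F
  F_pos : 0 < inter S.H P.F
  vert_sq : ∀ A : Div S.W, (∀ C, P.Hor C → A C = 0) → inter A A ≤ 0

/-- The vector fields tangent to the fibres. -/
structure Pen.Dr {S : Surf K} (P : Pen S) : Prop where
  ker : ∀ a u X, P.Ham a u X → ∀ f, X f = 0 ↔ f ∈ P.k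
  fd_hor : ∀ (a u : P.k), a ≠ 0 → (∀ c : ℂ, u ≠ algebraMap ℂ P.k c) → ∀ C, P.Hor C →
    S.fd a u C = 0
  fd_over : ∀ (a u : P.k), a ≠ 0 → (∀ c : ℂ, u ≠ algebraMap ℂ P.k c) → ∀ C p, P.Over C p →
    S.fd a u C + 1 = P.fib p C * (P019P.ord p a + wdv ℂ u p + 1)
  tang : ∀ a u X, P.Ham a u X → ∀ C p, P.Over C p → ∀ t : K, t ≠ 0 → S.vd X C ≤ C.ord t →
    ∀ b : K, b ≠ 0 → t * X b = 0 ∨ C.ord b ≤ C.ord (t * X b)
  tang_ne : ∀ a u X, P.Ham a u X → ∀ C p, P.Over C p → ∀ t : K, t ≠ 0 → S.vd X C = C.ord t →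
    ∃ D : Derivation ℂ C.Fn C.Fn, D ≠ 0 ∧ ∀ b ∈ C.pl.ring, C.rs (t * X b) = D (C.rs b)
  transv : ∀ a u X, P.Ham a u X → ∀ C, P.Hor C → ∀ t : K, t ≠ 0 → S.vd X C = C.ord t →
    ∀ b : K, C.ord b ≠ 0 → t * X b ≠ 0 ∧ C.ord (t * X b) = C.ord b - 1

def PENB : Prop := ForAll fun S => ∀ P : Pen S, P.Bas
def PENN : Prop := ForAll fun S => ∀ P : Pen S, P.Num
def PEND : Prop := ForAll fun S => ∀ P : Pen S, P.Dr

/-- The pencil defined by a function without points of indeterminacy. -/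
def PENOF : Prop := ForAll fun {K} _ _ S => ∀ f : K, (∀ c : ℂ, f ≠ algebraMap ℂ K c) →
  (∀ x : Pt S.W, f ∈ x.ring ∨ f⁻¹ ∈ x.ring) → ∃ P : Pen S, f ∈ P.k

/-- The genus of the base is at most the irregularity. -/
def GQ : Prop := ForAll fun S => ∀ P : Pen S, (gen ℂ P.k : ℤ) ≤ S.h1 0

/-- The base of a second pencil is rational. -/
def RATB : Prop := ForAll fun S => H0 S.kap = ⊥ → ∀ (φ : Fm S) (P : Pen S),
  (∃ f ∈ P.k, f ∉ φ.k) → gen ℂ P.k = 0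

/-- The fibres are connected. -/
def CONN : Prop := ForAll fun S => ∀ (P : Pen S) (p : Plk ℂ P.k) (A : Set (Crv S.W)),
  (∃ C, C ∈ A ∧ P.Over C p) → (∃ C, C ∉ A ∧ P.Over C p) →
  ∃ (x : Pt S.W) (C C' : Crv S.W), C ∈ A ∧ C' ∉ A ∧ P.Over C p ∧ P.Over C' p ∧ x.On C ∧ x.On C'

/-- The lemma of Zariski. -/
def ZAR : Prop := ForAll fun S => ∀ (P : Pen S) (V : Div S.W), (∀ C, P.Hor C → V C = 0) →
  inter V V = 0 → (∀ C, ¬ P.Hor C → inter V C.cl = 0) ∧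
    ∀ p C C', P.Over C p → P.Over C' p → V C * P.fib p C' = V C' * P.fib p C

/-- The theorem of Bertini. -/
def BERT : Prop := ForAll fun S => ∀ P : Pen S, ∃ T : Finset (Plk ℂ P.k),
  ∀ x : Pt S.W, P.π x ∉ T → ∃ t : x.ring, t.1 = (P.unif (P.π x)).1 ∧ t ∉ maximalIdeal x.ring ^ 2

/-- Almost all fibres are smooth curves. -/
def GENF : Prop := ForAll fun S => ∀ P : Pen S, ∃ T : Finset (Plk ℂ P.k),
  ∀ p, p ∉ T → ∃ C, P.Good p C

/-! ### The main steps -/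

/-- The inequality of Noether. -/
def NOE : Prop := ForAll fun S => ∀ φ : Fib S,
  inter S.kap S.kap + inter φ.M (S.kap - φ.M) ≤ 12 * chi (0 : Div S.W)

/-- The numerical invariants of a minimal surface. -/
structure Fm.Zero {S : Surf K} (φ : Fm S) : Prop where
  pg : H0 S.kap = ⊥
  nef : S.Nef S.kap
  chi : chi (0 : Div S.W) = 0
  h1 : S.h1 0 = 1
  gen : gen ℂ φ.k = 1
  KK : inter S.kap S.kap = 0
  KM : inter S.kap φ.M = 0
  MM : inter φ.M φ.M = 0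
  M_nonneg : 0 ≤ φ.M

def ZERO : Prop := ForAll fun S => H0 S.kap = ⊥ → S.Nef S.kap → ∀ φ : Fm S, φ.Zero

/-- The surfaces with nef canonical class. -/
def ENDG : Prop := ForAll fun S => ∀ φ : Fm S, φ.Zero → φ.pen.Tors

/-- The ruled surfaces. -/
def RULED : Prop := ForAll fun S => ∀ P : Pen S, inter S.kap P.F < 0 → P.Tors

/-- From the general fibres to all the zero-cycles. -/
def EXT : Prop := ForAll fun S => ∀ P : Pen S, P.Tors → P.Star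

/-- The target for the surfaces with nef canonical class. -/
def STARN : Prop := ForAll fun S => H0 S.kap = ⊥ → S.Nef S.kap →
  ∀ (φ : Fib S) (π : Pt S.W → Plk ℂ φ.k) (h : IsPi φ.k π), (φ.pen π h).Star

/-- The target for the ruled surfaces. -/
def STARR : Prop := ForAll fun S => ∀ P : Pen S, inter S.kap P.F < 0 → P.Star

/-- The reduction to minimal surfaces. -/
def MIN : Prop := STARN → STARR → STARK

theorem starn_of (der : DER) (zero : ZERO) (endg : ENDG) (ext : EXT) : STARN := by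
  intro K _ _ S hp hn φ π h
  obtain ⟨X, hX⟩ := (der K S).ex φ.a φ.u
  let ψ : Fm S := { φ with π := π, isPi := h, X := X, ham := hX }
  exact ext K S ψ.pen (endg K S ψ (zero K S hp hn ψ))

theorem star_of (kill : KILLP) (der : DER) (zero : ZERO) (endg : ENDG) (ruled : RULED) (ext : EXT)
    (min : MIN) : STAR := fun K _ _ S hp φ π h Q _ c hc =>
  min (starn_of der zero endg ext) (fun K _ _ S P h => ext K S P (ruled K S P h)) K S hp φ π h Q c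
    (kill K S Q c hc)

end Vale.Agent.P297Z.Sf
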