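import Vale.Agent.P297Y.Alg.Sk
import Vale.Agent.P297Y.Ctr.Hodge

/-! Smooth curves on a surface and the adjunction formula. -/

set_option linter.all false

open IsLocalRing

namespace Vale.Agent.P297Z.Sf

open Vale.Agent.P019P (CFF Plk LL Mge gen dg dv prn mem_Mge)

variable {K : Type} [Field K] [Algebra ℂ K]

namespace Smo

/-- The image of a local ring whose maximal ideal becomes principal is a valuation ring. -/
theorem dvd_of {R E : Type} [CommRing R] [IsLocalRing R] [Field E] [Algebra ℂ E] [CFF ℂ E]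
    (ρ : R →+* E) (w : Plk ℂ E) {t s : R} (hm : maximalIdeal R = Ideal.span {t, s}) (ht : ρ t = 0)
    (h1 : ∀ a, a ∈ maximalIdeal R ↔ ρ a ∈ Mge w 1) (n : ℕ) : ∀ a b, ρ b ≠ 0 →
    P019P.ord w (ρ b) ≤ n → ρ a ∈ Mge w (P019P.ord w (ρ b)) → ∃ f, ρ a = ρ b * ρ f := by
  have hu : ∀ a b, b ∉ maximalIdeal R → ∃ f, ρ a = ρ b * ρ f := fun a b hb => by
    obtain ⟨c, hc⟩ := (notMem_maximalIdeal.1 hb).exists_right_inv
    exact ⟨c * a, by rw [← map_mul, ← mul_assoc, hc, one_mul]⟩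
  have hs : ∀ a ∈ maximalIdeal R, ∃ c, ρ a = ρ c * ρ s := fun a ha => by
    rw [hm, Ideal.mem_span_pair] at ha
    obtain ⟨b, c, rfl⟩ := ha
    exact ⟨c, by rw [map_add, map_mul, map_mul, ht, mul_zero, zero_add]⟩
  induction n with
  | zero =>
    intro a b hb hn _
    refine hu a b fun h => ?_
    have := ((h1 b).1 h).resolve_left hb
    omega
  | succ n ih =>
    intro a b hb hn ha
    by_cases h : b ∈ maximalIdeal R
    swap
    · exact hu a b h
    have h2 := ((h1 b).1 h).resolve_left hb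
    obtain ⟨a', ea⟩ := hs a ((h1 a).2 (ha.imp_right fun h3 => h2.trans h3))
    obtain ⟨b', eb⟩ := hs b h
    have hb' : ρ b' ≠ 0 := fun h3 => hb (by rw [eb, h3, zero_mul])
    have hs0 : ρ s ≠ 0 := fun h3 => hb (by rw [eb, h3, mul_zero])
    have h3 := ((h1 s).1 (hm ▸ Ideal.subset_span (by simp))).resolve_left hs0
    have h4 : P019P.ord w (ρ b) = P019P.ord w (ρ b') + P019P.ord w (ρ s) := by
      rw [eb, P019P.ord_mul w hb' hs0]
    obtain ⟨f, hf⟩ := ih a' b' hb' (by omega) (by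
      by_cases h5 : ρ a' = 0
      · exact Or.inl h5
      · have h6 := ha.resolve_left (by rw [ea]; exact mul_ne_zero h5 hs0)
        rw [ea, P019P.ord_mul w h5 hs0] at h6
        exact Or.inr (by omega))
    exact ⟨f, by rw [ea, eb, hf]; ring⟩

variable {S : Surf K}

theorem lift (hc : S.Cs) {C : Crv S.W} (h : S.Smooth C) (w : Plk ℂ C.Fn) {e : C.Fn}
    (he : e ∈ w.1) : ∃ f ∈ (S.pt C w).ring, C.rs f = e := by
  have hA := S.all
  have hx : (S.pt C w).On C := (hc.on_iff C _).2 ⟨w, rfl⟩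
  have hρ : ∀ a : (S.pt C w).ring, C.rho hx a = C.rs a := fun a => (C.rs_of_mem (hx _ a.2)).symm
  obtain ⟨t, ht, ht2⟩ := h _ hx
  obtain ⟨w₀, hw₀, hin⟩ := (S.pt C w).exists_in
  have ht0 : C.rho hx t = 0 := (C.rho_eq_zero hx t).2 (Or.inr ht)
  have h1 : ∀ a, a ∈ maximalIdeal (S.pt C w).ring ↔ C.rho hx a ∈ Mge w 1 := fun a => by
    rw [Pt.mem_max, hc.pt_van C w a a.2, hρ]
  obtain ⟨-, -, -, s, -, hm⟩ := hA.ext _ w₀ hw₀ hin t ((h1 t).2 (Or.inl ht0)) ht2
  obtain ⟨a, b, hb, hab⟩ := Surf.frac_chart hA.toLoc1 C hw₀ (hx.crv_in hin) e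
  have hb' : C.rho hx ⟨b, hin.chart_le b.2⟩ ≠ 0 := hb
  have hab' : C.rho hx ⟨b, hin.chart_le b.2⟩ * e = C.rho hx ⟨a, hin.chart_le a.2⟩ := hab
  obtain ⟨f, hf⟩ := dvd_of (C.rho hx).toRingHom w hm ht0 h1 _ ⟨a, hin.chart_le a.2⟩
    ⟨b, hin.chart_le b.2⟩ hb' (Int.self_le_toNat _) (by
      have h2 := P019P.mul_mem_Mge (mem_Mge.2 (Or.inr le_rfl) :
        C.rho hx ⟨b, hin.chart_le b.2⟩ ∈ Mge w (P019P.ord w _))
        (mem_Mge.2 ((P019P.mem_iff_ord w e).1 he))
      rwa [add_zero, hab'] at h2)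
  exact ⟨f, f.2, by rw [← hρ]; exact (mul_left_cancel₀ hb' (hab'.trans hf)).symm⟩

/-- The sections on the curve are local principal parts. -/
theorem locSol [DecidableEq (Crv S.W)] (hc : S.Cs) {C : Crv S.W} (h : S.Smooth C) {D : Div S.W}
    (hD : D C = 0) {l : K} (hl : l ∈ C.pl.ring) (hv : C.rs l ∈ LL ℂ (S.rst C D)) :
    S.LocSol (D - C.cl) (Pi.single C l) := by
  refine ⟨(Set.finite_singleton C).subset (Pi.support_single_subset), fun x => ?_⟩
  by_cases hx : x.On C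
  swap
  · refine ⟨0, fun C' hC' => ?_⟩
    rw [Pi.single_eq_of_ne (fun e : C' = C => hx (e ▸ hC')), sub_zero]
    exact zero_mem _
  obtain ⟨w, rfl⟩ := (hc.on_iff C x).1 hx
  obtain ⟨ht0, ht⟩ := S.eqn_spec (S.pt C w) D
  have h1 := hc.rst_apply C D hD w _ (S.eqn_spec (S.pt C w) D)
  set t := S.eqn (S.pt C w) D
  have h2 : C.ord t = 0 := by
    have := ht C hx
    rwa [Finsupp.neg_apply, hD, neg_zero, add_zero] at this
  obtain ⟨h3, h4⟩ := (Pl.ord_eq_zero_iff _ ht0).1 h2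
  have h5 : C.rs t * C.rs t⁻¹ = 1 := by rw [← C.rs_mul h3 h4, mul_inv_cancel₀ ht0, C.rs_one]
  obtain ⟨f, hf, e⟩ := lift hc h w (e := C.rs l * C.rs t) (by
    have h6 := P019P.mul_mem_Mge (hv.imp_right fun h6 => h6 w : C.rs l ∈ Mge w (-S.rst C D w))
      (mem_Mge.2 (Or.inr h1.le) : C.rs t ∈ Mge w (S.rst C D w))
    rw [neg_add_cancel] at h6
    exact (P019P.mem_iff_ord w _).2 h6)
  refine ⟨f * t⁻¹, fun C' hC' => mem_secAt.2 ?_⟩
  by_cases hC : C' = C
  · subst hC
    have h6 := mul_mem (hx f hf) h4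
    have h7 : C'.rs (f * t⁻¹ - l) = 0 := by
      rw [C'.rs_sub h6 hl, C'.rs_mul (hx f hf) h4, e, mul_assoc, h5, mul_one, sub_self]
    rw [Pi.single_eq_same, Finsupp.sub_apply, hD, Finsupp.single_eq_same]
    exact ((C'.rs_eq_zero (sub_mem h6 hl)).1 h7).imp_right fun h8 => by omega
  · rw [Pi.single_eq_of_ne hC, sub_zero, Finsupp.sub_apply, Finsupp.single_eq_of_ne hC, sub_zero]
    by_cases hf0 : f = 0
    · exact Or.inl (by rw [hf0, zero_mul])
    have h6 := ht C' hC'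
    have h7 := Pl.ord_nonneg_of_mem _ (hC' f hf)
    rw [Finsupp.neg_apply] at h6
    unfold Crv.ord at *
    rw [Pl.ord_mul _ hf0 (inv_ne_zero ht0), Pl.ord_inv]
    exact Or.inr (by omega)

/-- The bound for the sections on a smooth curve. -/
theorem l_le (hc : S.Cs) (hp : PPLE) {C : Crv S.W} (h : S.Smooth C) {D : Div S.W}
    (hD : D C = 0) : (Module.finrank ℂ (LL ℂ (S.rst C D)) : ℤ) ≤
      h0 D + h0 (S.kap - (D - C.cl)) - chi (D - C.cl) := by
  classical
  have hA := S.all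
  let ρ : C.alg →ₐ[ℂ] C.Fn := C.rho fun _ h => h
  have hρ : ∀ a : C.alg, ρ a = C.rs a := fun a => (C.rs_of_mem a.2).symm
  obtain ⟨σ, hσ⟩ := ρ.toLinearMap.exists_rightInverse_of_surjective
    (LinearMap.range_eq_top.2 fun e => by
      obtain ⟨f, hf, h1⟩ := C.rs_surj e
      exact ⟨⟨f, hf⟩, (hρ _).trans h1⟩)
  have hσ' : ∀ e, C.rs (σ e : K) = e := fun e => (hρ _).symm.trans (LinearMap.congr_fun hσ e)
  let φ : LL ℂ (S.rst C D) →ₗ[ℂ] (Crv S.W → K) := LinearMap.single ℂ (fun _ => K) C ∘ₗ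
    C.alg.val.toLinearMap ∘ₗ σ ∘ₗ (LL ℂ (S.rst C D)).subtype
  have hφ : ∀ v, φ v = Pi.single C (σ v : K) := fun v => rfl
  have h1 := hp K S (D - C.cl) _ φ fun v => by
    rw [hφ]
    exact locSol hc h hD (σ v).2 (by rw [hσ']; exact v.2)
  have hm : ∀ g ∈ H0 D, g ∈ C.pl.ring := fun g hg => by
    by_cases h0 : g = 0
    · rw [h0]
      exact zero_mem _
    have := hg.resolve_left h0 C trivial
    rw [hD, add_zero] at this
    exact (Pl.ord_nonneg_iff _ h0).1 this
  let r : H0 D →ₗ[ℂ] C.Fn :=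
    { toFun := fun g => C.rs g
      map_add' := fun f g => C.rs_add (hm _ f.2) (hm _ g.2)
      map_smul' := fun c f => C.rs_smul c (hm _ f.2) }
  have := Hd.fin hA D
  have := Hd.fin hA (D - C.cl)
  have hle : H0 (D - C.cl) ≤ H0 D := secOn_mono fun C' _ => ⟨trivial, by
    have : 0 ≤ C.cl C' := Finsupp.single_nonneg.2 zero_le_one C'
    rw [Finsupp.sub_apply]
    omega⟩
  have h2 : Module.finrank ℂ (H0 (D - C.cl)) ≤ Module.finrank ℂ (LinearMap.ker r) := by
    rw [← (Submodule.comapSubtypeEquivOfLe hle).finrank_eq]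
    refine Submodule.finrank_mono fun g hg => (C.rs_eq_zero (hm _ g.2)).2 ?_
    refine Or.imp_right (fun h3 => ?_) hg
    have h4 := h3 C trivial
    rw [Finsupp.sub_apply, hD, Finsupp.single_eq_same] at h4
    change 0 ≤ C.ord (g : K) + _ at h4
    omega
  have h3 : Module.finrank ℂ ((S.Glob (D - C.cl)).comap φ) ≤
      Module.finrank ℂ (LinearMap.range r) := by
    rw [← Submodule.finrank_map_subtype_eq]
    refine Submodule.finrank_mono ?_
    rintro _ ⟨v, ⟨g, hg⟩, rfl⟩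
    have h4 := mem_secAt.1 (hg C)
    rw [hφ, Pi.single_eq_same, Finsupp.sub_apply, hD, Finsupp.single_eq_same] at h4
    have h5 : g - (σ v : K) ∈ C.pl.ring := by
      by_cases h0 : g - (σ v : K) = 0
      · rw [h0]
        exact zero_mem _
      have := h4.resolve_left h0
      exact (Pl.ord_nonneg_iff _ h0).1 (by unfold Crv.ord at this; omega)
    have h6 : g ∈ C.pl.ring := by simpa using add_mem h5 (σ v).2
    have h7 := (C.rs_eq_zero h5).2 (h4.imp_right fun h7 => by omega)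
    rw [C.rs_sub h6 (σ v).2, hσ', sub_eq_zero] at h7
    refine ⟨⟨g, ?_⟩, h7⟩
    by_cases h0 : g = 0
    · exact Or.inl h0
    refine Or.inr fun C' _ => ?_
    by_cases hC : C' = C
    · rw [hC, hD, add_zero]
      exact Pl.ord_nonneg_of_mem _ h6
    · have h8 := mem_secAt.1 (hg C')
      rw [hφ, Pi.single_eq_of_ne hC, sub_zero, Finsupp.sub_apply, Finsupp.single_eq_of_ne hC,
        sub_zero] at h8
      exact h8.resolve_left h0
  have h4 := r.finrank_range_add_finrank_ker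
  unfold Surf.h1 at h1
  unfold h0 at *
  omega

end Smo

theorem smo (h : CS) : SMO := by
  intro K _ _ S C hC
  refine ⟨fun w w' e => P019P.Plk.eq_of_le fun z hz => ?_, fun w e he => Smo.lift (h K S) hC w he⟩
  obtain ⟨f, hf, rfl⟩ := Smo.lift (h K S) hC w hz
  exact (((h K S).pt_iff C w' _).1 e.symm f hf).2

theorem geq (h : CS) (hp : PPLE) (hg : GLE) : GEQ := by
  intro K _ _ S C hC
  refine le_antisymm (hg K S C) ?_
  have hA := S.all
  obtain ⟨m₀, hm⟩ := hA.large 0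
  obtain ⟨m, hm1, hm2⟩ : ∃ m : ℤ, m₀ ≤ m ∧ inter S.H S.kap + inter S.H C.cl < m * inter S.H S.H := by
    refine ⟨|m₀| + |inter S.H S.kap + inter S.H C.cl| + 1, ?_, ?_⟩
    · have := le_abs_self m₀
      have := abs_nonneg (inter S.H S.kap + inter S.H C.cl)
      omega
    · have := abs_nonneg m₀
      have := le_abs_self (inter S.H S.kap + inter S.H C.cl)
      have := abs_nonneg (inter S.H S.kap + inter S.H C.cl)
      have := hA.sq
      nlinarith
  obtain ⟨g, hg0, hg1⟩ := hA.move {C} fun _ => -(m • S.H) C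
  set D := m • S.H + div S.W g with hD
  have hDC : D C = 0 := by
    rw [hD, Finsupp.add_apply, div_apply hA.toLoc2, hg1 C (Finset.mem_singleton_self C),
      add_neg_cancel]
  have h1 : h0 D = chi D := by
    have := hm m hm1
    rwa [zero_add, ← h0_lin hA.toLoc2 _ hg0, ← chi_lin hA.toLoc2 _ hg0] at this
  have h2 : inter S.H D = m * inter S.H S.H := by
    rw [inter_comm, hD, inter_lin hA.toRR _ _ hg0, ← S.B_apply, map_zsmul]
    rfl
  have h3 : h0 (S.kap - (D - C.cl)) = 0 := h0_bot (Rul.bot_of_neg hA (Hd.nef_H hA) (by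
    rw [← S.B_apply, map_sub, map_sub, S.B_apply, S.B_apply, S.B_apply, h2]
    omega))
  have h4 := Smo.l_le (h K S) hp hC hDC
  have h5 := P019P.RR (S.rst C D)
  rw [(h K S).dg_rst C D hDC] at h5
  have h6 := hA.rr D
  have h7 := hA.rr (D - C.cl)
  have h8 : inter (D - C.cl) (D - C.cl) = inter D D - 2 * inter D C.cl + inter C.cl C.cl := by
    rw [← S.B_apply, map_sub, map_sub, AddMonoidHom.sub_apply, AddMonoidHom.sub_apply, S.B_apply,
      S.B_apply, S.B_apply, S.B_apply, inter_comm C.cl D]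
    ring
  have h9 : inter S.kap (D - C.cl) = inter S.kap D - inter S.kap C.cl := by
    rw [← S.B_apply, map_sub, S.B_apply, S.B_apply]
  unfold Surf.ag
  omega

end Vale.Agent.P297Z.Sf
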