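import Vale.Agent.P297Y.Alg.Ext
import Vale.Agent.P297Y.Alg.Cs
import Vale.Agent.P297Y.Alg.Conn
import Vale.Agent.P297Y.Alg.Cv
import Vale.Agent.P297Y.Alg.Der
import Vale.Agent.P297Y.Alg.H1
import Vale.Agent.P297Y.Alg.Kill
import Vale.Agent.P297Y.Alg.Penb
import Vale.Agent.P297Y.Alg.Pend
import Vale.Agent.P297Y.Alg.Penn
import Vale.Agent.P297Y.Alg.Penof
import Vale.Agent.P297Y.Alg.Pp
import Vale.Agent.P297Y.Alg.PrnOf
import Vale.Agent.P297Y.Alg.Sing
import Vale.Agent.P297Y.Alg.Smo
import Vale.Agent.P297Y.An.Fin
import Vale.Agent.P297Y.Ctr.Min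
import Vale.Agent.P297Y.Noe.Top

/-! P297, positive irregularity: the assembly of the general facts. -/

namespace Vale.Agent.P297Z.Sf.At

theorem gle' : GLE := gle cs
theorem pple' : PPLE := pple h1le
theorem geq' : GEQ := geq cs pple' gle'
theorem sing' : SING := sing der
theorem penn' : PENN := penn cs penb
theorem pend' : PEND := pend der penb
theorem ratb' : RATB := ratb der penb pend'
theorem conn' : CONN := conn pple' penb
theorem zar' : ZAR := zar penb penn' conn'
theorem genf' : GENF := genf penb conn' (bert der penb pend' sing')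

theorem star_of_endg (endg : ENDG) : STAR :=
  star_of (killp cs) der (zero_of (noe der) (gq pple' penb) der penn' pend') endg
    (ruled_of gle' penn') (ext_of cs penb penn' genf' mov const (prn_of const))
    (Ct.min cs gle' penb penn' genf' mor' regb)

end Vale.Agent.P297Z.Sf.At
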