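import Vale.Agent.P297Y.Alg.Sk

/-! P297, positive irregularity: the criterion of Wronski. -/

set_option linter.all false

namespace Vale.Agent.P297Z.Sf

namespace Wron

variable {K : Type} [Field K] [Algebra ℂ K] {k : IntermediateField ℂ K} {X : Derivation ℂ K K}

theorem rel (hX : ∀ f, X f = 0 ↔ f ∈ k) (r : ℕ) : ∀ e : Fin r → K, LinearIndependent k e →
    ∀ c : Fin r → K, (∀ j, j < r → ∑ i, c i * (X : K → K)^[j] (e i) = 0) → c = 0 := by
  induction r with
  | zero => exact fun _ _ c _ => Subsingleton.elim _ _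
  | succ r ih =>
    intro e he c hc
    by_contra h0
    obtain ⟨i₀, hi⟩ := Function.ne_iff.1 h0
    have hi' : c i₀ ≠ 0 := hi
    let d : Fin (r + 1) → K := fun i => c i / c i₀
    have d0 : d i₀ = 1 := div_self hi'
    have hd : ∀ j, j < r + 1 → ∑ i, d i * (X : K → K)^[j] (e i) = 0 := fun j hj => by
      have h1 := congrArg (· / c i₀) (hc j hj)
      simp only [zero_div, Finset.sum_div] at h1
      rw [← h1]
      exact Finset.sum_congr rfl fun i _ => div_mul_eq_mul_div _ _ _
    have hx : ∀ j, j < r → ∑ i, X (d i) * (X : K → K)^[j] (e i) = 0 := fun j hj => by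
      have h1 := congrArg X (hd j (by omega))
      have h2 := hd (j + 1) (by omega)
      simp only [map_sum, map_zero, Derivation.leibniz, smul_eq_mul, Finset.sum_add_distrib] at h1
      simp only [Function.iterate_succ_apply'] at h2
      rw [h2, zero_add] at h1
      rw [← h1]
      exact Finset.sum_congr rfl fun i _ => mul_comm _ _
    have x0 : X (d i₀) = 0 := by rw [d0, Derivation.map_one_eq_zero]
    have h3 := ih (e ∘ i₀.succAbove) (he.comp _ Fin.succAbove_right_injective)
      (fun i => X (d (i₀.succAbove i))) fun j hj => by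
        have h1 := hx j hj
        rwa [Fin.sum_univ_succAbove _ i₀, x0, zero_mul, zero_add] at h1
    have h4 : ∀ i, d i ∈ k := fun i => (hX _).1 (by
      rcases Fin.eq_self_or_eq_succAbove i₀ i with rfl | ⟨i, rfl⟩
      · exact x0
      · exact congrFun h3 i)
    have h5 := Fintype.linearIndependent_iff.1 he (fun i => ⟨d i, h4 i⟩) (hd 0 (by omega)) i₀
    exact one_ne_zero (d0.symm.trans (congrArg Subtype.val h5))

end Wron

theorem wron : WRON := fun K _ _ k X hX r e he h0 => by
  obtain ⟨c, hc, h1⟩ := Matrix.exists_vecMul_eq_zero_iff.2 h0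
  exact hc (Wron.rel hX r e he c fun j hj => congrFun h1 ⟨j, hj⟩)

end Vale.Agent.P297Z.Sf
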